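import Vale.Agent.P344.H120.GDefs

/-!
# Additions needed by a linear circuit: alive additions

Coefficients, depth and fan-out are unrestricted.
-/

set_option linter.unusedSectionVars false

namespace Vale.Agent.P344

open Finset

variable {ι κ : Type} [Fintype ι] [DecidableEq ι] [Fintype κ]

namespace H992

/-- `w` vanishes on `S`. -/
def Van (S : Finset ι) (w : ι → ℂ) : Prop := ∀ i ∈ S, w i = 0

/-- On `S`, `w` is a nonzero multiple of `x_i`. -/
def Mono (S : Finset ι) (i : ι) (w : ι → ℂ) : Prop :=
  i ∈ S ∧ w i ≠ 0 ∧ ∀ j ∈ S, j ≠ i → w j = 0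

/-- On `S`, `w` has two nonzero coordinates. -/
def Big (S : Finset ι) (w : ι → ℂ) : Prop := ∃ i ∈ S, ∃ j ∈ S, i ≠ j ∧ w i ≠ 0 ∧ w j ≠ 0

theorem not_big {S : Finset ι} {w : ι → ℂ} (h : ¬ Big S w) : Van S w ∨ ∃ i, Mono S i w := by
  by_cases hv : Van S w
  · exact Or.inl hv
  · right
    unfold Van at hv
    push Not at hv
    obtain ⟨i, hi, hwi⟩ := hv
    refine ⟨i, hi, hwi, fun j hj hji => ?_⟩
    by_contra hwj
    exact h ⟨j, hj, i, hi, hji, hwj, hwi⟩

/-- The value of an addition or subtraction, with a sign. -/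
theorem eval_add {C : Circuit ι κ} {f : C.G → ι → ℂ} (hf : C.IsForms f) {g : C.G}
    (hg : (C.gate g).IsAdd) :
    ∃ p q, ∃ s : ℂ, s ≠ 0 ∧ (C.gate g).args = [p, q] ∧
      ∀ i, f g i = C.cell f p i + s * C.cell f q i := by
  have h := hf g
  match hgate : C.gate g with
  | .add p q =>
    rw [hgate] at h
    exact ⟨p, q, 1, one_ne_zero, rfl, fun i => by rw [h]; simp [Gate.eval]⟩
  | .sub p q =>
    rw [hgate] at h
    exact ⟨p, q, -1, by norm_num, rfl, fun i => by rw [h]; simp [Gate.eval, sub_eq_add_neg]⟩
  | .smul c p =>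
    rw [hgate] at hg
    exact absurd hg (by simp [Gate.IsAdd])

/-- The value of a scalar multiplication. -/
theorem eval_smul {C : Circuit ι κ} {f : C.G → ι → ℂ} (hf : C.IsForms f) {g : C.G}
    (hg : ¬ (C.gate g).IsAdd) :
    ∃ p, ∃ c : ℂ, C.gate g = .smul c p ∧ (C.gate g).args = [p] ∧
      ∀ i, f g i = c * C.cell f p i := by
  have h := hf g
  match hgate : C.gate g with
  | .add p q =>
    rw [hgate] at hg
    exact absurd trivial hg
  | .sub p q =>
    rw [hgate] at hg
    exact absurd trivial hg
  | .smul c p =>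
    rw [hgate] at h
    exact ⟨p, c, rfl, rfl, fun i => by rw [h]; simp [Gate.eval]⟩

theorem cell_inl_not_big (C : Circuit ι κ) (f : C.G → ι → ℂ) (S : Finset ι) (o : Option ι) :
    ¬ Big S (C.cell f (Sum.inl o)) := by
  rintro ⟨i, -, j, -, hij, hi, hj⟩
  match o with
  | none => simp [Circuit.cell] at hi
  | some l =>
    simp only [Circuit.cell, ne_eq, Pi.single_apply, ite_eq_right_iff, one_ne_zero, imp_false,
      not_not] at hi hj
    exact hij (hi.trans hj.symm)

/-- Induction over the cells of a circuit. -/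
theorem cell_induction (C : Circuit ι κ) {P : Option ι ⊕ C.G → Prop} (h0 : ∀ o, P (Sum.inl o))
    (h1 : ∀ g, (∀ c ∈ (C.gate g).args, P c) → P (Sum.inr g)) : ∀ c, P c := by
  have key : ∀ n : ℕ, ∀ g, C.depth g = n → P (Sum.inr g) := by
    intro n
    induction n using Nat.strong_induction_on with
    | _ n ih =>
      intro g hg
      refine h1 g fun c hc => ?_
      match c with
      | Sum.inl o => exact h0 o
      | Sum.inr g' =>
        have := C.depth_lt g g' hc
        exact ih (C.depth g') (by omega) g' rfl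
  intro c
  match c with
  | Sum.inl o => exact h0 o
  | Sum.inr g => exact key _ g rfl

/-- The first gate with two nonzero coordinates in `S` adds multiples of two inputs. -/
theorem exists_first {C : Circuit ι κ} {f : C.G → ι → ℂ} (hf : C.IsForms f) {S : Finset ι}
    (h : ∃ g, Big S (f g)) :
    ∃ g, (C.gate g).IsAdd ∧ ∃ p q, ∃ s : ℂ, s ≠ 0 ∧ (C.gate g).args = [p, q] ∧
      (∀ i, f g i = C.cell f p i + s * C.cell f q i) ∧
      ∃ i j, i ≠ j ∧ Mono S i (C.cell f p) ∧ Mono S j (C.cell f q) := by
  classical
  obtain ⟨g₀, hg₀⟩ := h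
  obtain ⟨g, hg, hmin⟩ := Finset.exists_min_image (univ.filter fun g => Big S (f g)) C.depth
    ⟨g₀, by simp [hg₀]⟩
  rw [mem_filter] at hg
  have hb := hg.2
  have harg : ∀ c ∈ (C.gate g).args, ¬ Big S (C.cell f c) := by
    intro c hc hcb
    match c with
    | Sum.inl o => exact cell_inl_not_big C f S o hcb
    | Sum.inr g' =>
      have h1 := C.depth_lt g g' hc
      have h2 := hmin g' (by simpa [Circuit.cell] using hcb)
      omega
  by_cases hadd : (C.gate g).IsAdd
  · obtain ⟨p, q, s, hs, hargs, hval⟩ := eval_add hf hadd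
    refine ⟨g, hadd, p, q, s, hs, hargs, hval, ?_⟩
    have hp := harg p (by simp [hargs])
    have hq := harg q (by simp [hargs])
    obtain ⟨a, ha, b, hb', hab, hva, hvb⟩ := hb
    rw [hval] at hva hvb
    rcases not_big hp with hp | ⟨i, hi⟩
    · exfalso
      refine hq ⟨a, ha, b, hb', hab, ?_, ?_⟩
      · rw [hp a ha, zero_add] at hva
        exact right_ne_zero_of_mul hva
      · rw [hp b hb', zero_add] at hvb
        exact right_ne_zero_of_mul hvb
    rcases not_big hq with hq | ⟨j, hj⟩
    · exfalso
      refine hp ⟨a, ha, b, hb', hab, ?_, ?_⟩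
      · rwa [hq a ha, mul_zero, add_zero] at hva
      · rwa [hq b hb', mul_zero, add_zero] at hvb
    refine ⟨i, j, ?_, hi, hj⟩
    rintro rfl
    rcases eq_or_ne a i with rfl | hai
    · rw [hi.2.2 b hb' (Ne.symm hab), hj.2.2 b hb' (Ne.symm hab)] at hvb
      simp at hvb
    · rw [hi.2.2 a ha hai, hj.2.2 a ha hai] at hva
      simp at hva
  · exfalso
    obtain ⟨p, c, -, hargs, hval⟩ := eval_smul hf hadd
    obtain ⟨a, ha, b, hb', hab, hva, hvb⟩ := hb
    rw [hval] at hva hvb
    exact harg p (by simp [hargs])
      ⟨a, ha, b, hb', hab, right_ne_zero_of_mul hva, right_ne_zero_of_mul hvb⟩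

open Classical in
/-- The additions both arguments of which are nonzero on `S`. -/
noncomputable def alive (C : Circuit ι κ) (f : C.G → ι → ℂ) (S : Finset ι) : Finset C.G :=
  C.adds.filter fun g => ∀ c ∈ (C.gate g).args, ¬ Van S (C.cell f c)

theorem mem_alive {C : Circuit ι κ} {f : C.G → ι → ℂ} {S : Finset ι} {g : C.G} :
    g ∈ alive C f S ↔ (C.gate g).IsAdd ∧ ∀ c ∈ (C.gate g).args, ¬ Van S (C.cell f c) := by
  classical
  simp [alive, Circuit.adds]

theorem alive_subset_adds {C : Circuit ι κ} {f : C.G → ι → ℂ} {S : Finset ι} :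
    alive C f S ⊆ C.adds := by
  classical
  exact filter_subset _ _

theorem alive_mono {C : Circuit ι κ} {f : C.G → ι → ℂ} {S T : Finset ι} (h : S ⊆ T) :
    alive C f S ⊆ alive C f T := by
  intro g hg
  rw [mem_alive] at hg ⊢
  exact ⟨hg.1, fun c hc hv => hg.2 c hc fun i hi => hv i (h hi)⟩

open Classical in
/-- The alive additions that read a multiple of `x_i`. -/
noncomputable def touch (C : Circuit ι κ) (f : C.G → ι → ℂ) (S : Finset ι) (i : ι) :
    Finset C.G :=
  (alive C f S).filter fun g => ∃ c ∈ (C.gate g).args, Mono S i (C.cell f c)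

theorem alive_erase {C : Circuit ι κ} {f : C.G → ι → ℂ} {S : Finset ι} {i : ι} :
    (alive C f (S.erase i)).card + (touch C f S i).card ≤ (alive C f S).card := by
  classical
  rw [← card_union_of_disjoint]
  · refine card_le_card (union_subset (alive_mono (erase_subset _ _)) ?_)
    exact filter_subset _ _
  · rw [disjoint_left]
    intro g h1 h2
    rw [touch, mem_filter] at h2
    obtain ⟨c, hc, hm⟩ := h2.2
    refine (mem_alive.1 h1).2 c hc fun j hj => ?_
    rw [mem_erase] at hj
    exact hm.2.2 j hj.2 hj.1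

/-- Dropping a suitable input kills two additions. -/
theorem exists_drop {A : Matrix κ ι ℂ} {C : Circuit ι κ} {f : C.G → ι → ℂ} (hf : C.IsForms f)
    (hA : ∀ k i, C.cell f (C.out k) i = A k i) (h0 : ∀ k i, A k i ≠ 0) [Nonempty κ]
    {S : Finset ι} (hS : 2 ≤ S.card)
    (hcol : ∀ i ∈ S, ∀ j ∈ S, i ≠ j → ∀ a b : ℂ, a ≠ 0 → b ≠ 0 → ∃ k, b * A k i ≠ a * A k j) :
    ∃ i ∈ S, (alive C f (S.erase i)).card + 2 ≤ (alive C f S).card := by
  classical
  obtain ⟨i₁, hi₁, i₂, hi₂, h12⟩ := Finset.one_lt_card.1 (show 1 < S.card by omega)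
  have hbig : ∀ k, Big S (C.cell f (C.out k)) := fun k =>
    ⟨i₁, hi₁, i₂, hi₂, h12, by rw [hA]; exact h0 _ _, by rw [hA]; exact h0 _ _⟩
  have hex : ∃ g, Big S (f g) := by
    obtain ⟨k⟩ := ‹Nonempty κ›
    have := hbig k
    match hk : C.out k with
    | Sum.inl o =>
      rw [hk] at this
      exact absurd this (cell_inl_not_big C f S o)
    | Sum.inr g =>
      rw [hk] at this
      exact ⟨g, this⟩
  obtain ⟨g, hadd, p, q, s, hs, hargs, hval, i, j, hij, hi, hj⟩ := exists_first hf hex
  have halive : g ∈ alive C f S := by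
    rw [mem_alive]
    refine ⟨hadd, fun c hc hv => ?_⟩
    rw [hargs] at hc
    simp only [List.mem_cons, List.not_mem_nil, or_false] at hc
    rcases hc with rfl | rfl
    · exact hi.2.1 (hv i hi.1)
    · exact hj.2.1 (hv j hj.1)
  have hgi : g ∈ touch C f S i := by
    rw [touch, mem_filter]
    exact ⟨halive, p, by simp [hargs], hi⟩
  have hgj : g ∈ touch C f S j := by
    rw [touch, mem_filter]
    exact ⟨halive, q, by simp [hargs], hj⟩
  by_cases ti : 2 ≤ (touch C f S i).card
  · exact ⟨i, hi.1, by have := alive_erase (C := C) (f := f) (S := S) (i := i); omega⟩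
  by_cases tj : 2 ≤ (touch C f S j).card
  · exact ⟨j, hj.1, by have := alive_erase (C := C) (f := f) (S := S) (i := j); omega⟩
  exfalso
  have ui : ∀ h ∈ touch C f S i, h = g := fun h hh =>
    Finset.card_le_one.1 (by omega) h hh g hgi
  have uj : ∀ h ∈ touch C f S j, h = g := fun h hh =>
    Finset.card_le_one.1 (by omega) h hh g hgj
  set a := f g i with ha
  set b := f g j with hb
  have ha0 : a ≠ 0 := by
    rw [ha, hval, hj.2.2 i hi.1 hij, mul_zero, add_zero]
    exact hi.2.1
  have hb0 : b ≠ 0 := by
    rw [hb, hval, hi.2.2 j hj.1 (Ne.symm hij), zero_add]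
    exact mul_ne_zero hs hj.2.1
  -- classification of all cells
  have key : ∀ c, Mono S i (C.cell f c) ∨ Mono S j (C.cell f c) ∨
      ∃ t : ℂ, C.cell f c i = t * a ∧ C.cell f c j = t * b := by
    refine cell_induction C ?_ ?_
    · intro o
      match o with
      | none => exact Or.inr (Or.inr ⟨0, by simp [Circuit.cell]⟩)
      | some l =>
        by_cases hli : l = i
        · subst hli
          left
          refine ⟨hi.1, by simp [Circuit.cell], fun m _ hm => ?_⟩
          simp [Circuit.cell, hm]
        · by_cases hlj : l = j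
          · subst hlj
            right; left
            refine ⟨hj.1, by simp [Circuit.cell], fun m _ hm => ?_⟩
            simp [Circuit.cell, hm]
          · right; right
            refine ⟨0, ?_, ?_⟩
            · simp [Circuit.cell, Ne.symm hli]
            · simp [Circuit.cell, Ne.symm hlj]
    · intro h ih
      by_cases hha : (C.gate h).IsAdd
      · by_cases hhg : h = g
        · subst hhg
          right; right
          exact ⟨1, by simp [Circuit.cell, ha], by simp [Circuit.cell, hb]⟩
        obtain ⟨p', q', s', hs', hargs', hval'⟩ := eval_add hf hha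
        have hp' := ih p' (by simp [hargs'])
        have hq' := ih q' (by simp [hargs'])
        by_cases hvp : Van S (C.cell f p')
        · -- value is `s' * cell q'`
          have e : ∀ m ∈ S, C.cell f (Sum.inr h) m = s' * C.cell f q' m := by
            intro m hm
            change f h m = _
            rw [hval', hvp m hm, zero_add]
          rcases hq' with hq' | hq' | ⟨t, h1, h2⟩
          · left
            refine ⟨hi.1, ?_, fun m hm hmi => ?_⟩
            · rw [e i hi.1]; exact mul_ne_zero hs' hq'.2.1
            · rw [e m hm, hq'.2.2 m hm hmi, mul_zero]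
          · right; left
            refine ⟨hj.1, ?_, fun m hm hmi => ?_⟩
            · rw [e j hj.1]; exact mul_ne_zero hs' hq'.2.1
            · rw [e m hm, hq'.2.2 m hm hmi, mul_zero]
          · right; right
            refine ⟨s' * t, ?_, ?_⟩
            · rw [e i hi.1, h1]; ring
            · rw [e j hj.1, h2]; ring
        by_cases hvq : Van S (C.cell f q')
        · have e : ∀ m ∈ S, C.cell f (Sum.inr h) m = C.cell f p' m := by
            intro m hm
            change f h m = _
            rw [hval', hvq m hm, mul_zero, add_zero]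
          rcases hp' with hp' | hp' | ⟨t, h1, h2⟩
          · left
            refine ⟨hi.1, ?_, fun m hm hmi => ?_⟩
            · rw [e i hi.1]; exact hp'.2.1
            · rw [e m hm, hp'.2.2 m hm hmi]
          · right; left
            refine ⟨hj.1, ?_, fun m hm hmi => ?_⟩
            · rw [e j hj.1]; exact hp'.2.1
            · rw [e m hm, hp'.2.2 m hm hmi]
          · right; right
            exact ⟨t, by rw [e i hi.1, h1], by rw [e j hj.1, h2]⟩
        -- alive
        have hal : h ∈ alive C f S := by
          rw [mem_alive]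
          refine ⟨hha, fun c hc => ?_⟩
          rw [hargs'] at hc
          simp only [List.mem_cons, List.not_mem_nil, or_false] at hc
          rcases hc with rfl | rfl
          · exact hvp
          · exact hvq
        have ni : ∀ c ∈ (C.gate h).args, ¬ Mono S i (C.cell f c) := fun c hc hm =>
          hhg (ui h (by rw [touch, mem_filter]; exact ⟨hal, c, hc, hm⟩))
        have nj : ∀ c ∈ (C.gate h).args, ¬ Mono S j (C.cell f c) := fun c hc hm =>
          hhg (uj h (by rw [touch, mem_filter]; exact ⟨hal, c, hc, hm⟩))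
        obtain ⟨t, h1, h2⟩ := (hp'.resolve_left (ni p' (by simp [hargs']))).resolve_left
          (nj p' (by simp [hargs']))
        obtain ⟨u, h3, h4⟩ := (hq'.resolve_left (ni q' (by simp [hargs']))).resolve_left
          (nj q' (by simp [hargs']))
        right; right
        refine ⟨t + s' * u, ?_, ?_⟩
        · change f h i = _
          rw [hval', h1, h3]; ring
        · change f h j = _
          rw [hval', h2, h4]; ring
      · obtain ⟨p', c', -, hargs', hval'⟩ := eval_smul hf hha
        have e : ∀ m, C.cell f (Sum.inr h) m = c' * C.cell f p' m := hval'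
        by_cases hc' : c' = 0
        · right; right
          exact ⟨0, by rw [e, hc']; simp, by rw [e, hc']; simp⟩
        rcases ih p' (by simp [hargs']) with hp' | hp' | ⟨t, h1, h2⟩
        · left
          refine ⟨hi.1, ?_, fun m hm hmi => ?_⟩
          · rw [e]; exact mul_ne_zero hc' hp'.2.1
          · rw [e, hp'.2.2 m hm hmi, mul_zero]
        · right; left
          refine ⟨hj.1, ?_, fun m hm hmi => ?_⟩
          · rw [e]; exact mul_ne_zero hc' hp'.2.1
          · rw [e, hp'.2.2 m hm hmi, mul_zero]
        · right; right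
          exact ⟨c' * t, by rw [e, h1]; ring, by rw [e, h2]; ring⟩
  obtain ⟨k, hk⟩ := hcol i hi.1 j hj.1 hij a b ha0 hb0
  rcases key (C.out k) with h | h | ⟨t, h1, h2⟩
  · exact h0 k j (by rw [← hA]; exact h.2.2 j hj.1 (Ne.symm hij))
  · exact h0 k i (by rw [← hA]; exact h.2.2 i hi.1 hij)
  · rw [hA] at h1 h2
    exact hk (by rw [h1, h2]; ring)

end H992

end Vale.Agent.P344
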