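import Vale.Agent.P344.H992.Alive

/-!
# Additions needed by pairwise non-proportional outputs
-/

set_option linter.unusedSectionVars false

namespace Vale.Agent.P344

open Finset

variable {ι κ : Type} [Fintype ι] [DecidableEq ι] [Fintype κ]

namespace H992

/-- `w` is a nonzero multiple of `u` on `S`. -/
def Prop' (S : Finset ι) (w u : ι → ℂ) : Prop := ∃ t : ℂ, t ≠ 0 ∧ ∀ i ∈ S, w i = t * u i

/-- On `S`, all coordinates of `w` are nonzero. -/
def Full (S : Finset ι) (w : ι → ℂ) : Prop := ∀ i ∈ S, w i ≠ 0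

theorem Full.big {S : Finset ι} {w : ι → ℂ} (h : Full S w) (hS : 2 ≤ S.card) : Big S w := by
  obtain ⟨i, hi, j, hj, hij⟩ := Finset.one_lt_card.1 (show 1 < S.card by omega)
  exact ⟨i, hi, j, hj, hij, h i hi, h j hj⟩

/-- A gate of least depth proportional to the full vector `u` is an alive addition. -/
theorem first_prop {C : Circuit ι κ} {f : C.G → ι → ℂ} (hf : C.IsForms f) {S : Finset ι}
    (hS : 2 ≤ S.card) {u : ι → ℂ} (hu : Full S u) {c : Option ι ⊕ C.G}
    (hc : Prop' S (C.cell f c) u) : ∃ g, g ∈ alive C f S ∧ Prop' S (f g) u := by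
  classical
  have hfull : ∀ c, Prop' S (C.cell f c) u → Full S (C.cell f c) := by
    rintro c ⟨t, ht, h⟩ i hi
    rw [h i hi]
    exact mul_ne_zero ht (hu i hi)
  have hgate : ∀ c, Prop' S (C.cell f c) u → ∃ g, c = Sum.inr g := by
    intro c hc
    match c with
    | Sum.inl o => exact absurd ((hfull _ hc).big hS) (cell_inl_not_big C f S o)
    | Sum.inr g => exact ⟨g, rfl⟩
  obtain ⟨g₁, hg₁⟩ := hgate c hc
  subst hg₁
  obtain ⟨g, hg, hmin⟩ := Finset.exists_min_image (univ.filter fun g => Prop' S (f g) u) C.depth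
    ⟨g₁, by rw [mem_filter]; exact ⟨mem_univ _, hc⟩⟩
  rw [mem_filter] at hg
  obtain ⟨t, ht, htv⟩ := hg.2
  have harg : ∀ c ∈ (C.gate g).args, ¬ Prop' S (C.cell f c) u := by
    intro c hc hcp
    obtain ⟨g', rfl⟩ := hgate c hcp
    have h1 := C.depth_lt g g' hc
    have h2 := hmin g' (by simpa [Circuit.cell] using hcp)
    omega
  refine ⟨g, ?_, hg.2⟩
  obtain ⟨i₀, hi₀⟩ : S.Nonempty := Finset.card_pos.1 (by omega)
  by_cases hadd : (C.gate g).IsAdd
  · obtain ⟨p, q, s, hs, hargs, hval⟩ := eval_add hf hadd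
    rw [mem_alive]
    refine ⟨hadd, fun c hc hv => ?_⟩
    rw [hargs] at hc
    simp only [List.mem_cons, List.not_mem_nil, or_false] at hc
    rcases hc with rfl | rfl
    · refine harg q (by simp [hargs]) ⟨s⁻¹ * t, mul_ne_zero (inv_ne_zero hs) ht, fun i hi => ?_⟩
      have h1 := htv i hi
      rw [hval, hv i hi, zero_add] at h1
      rw [mul_assoc, ← h1]
      field_simp
    · refine harg p (by simp [hargs]) ⟨t, ht, fun i hi => ?_⟩
      have h1 := htv i hi
      rwa [hval, hv i hi, mul_zero, add_zero] at h1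
  · exfalso
    obtain ⟨p, c, -, hargs, hval⟩ := eval_smul hf hadd
    have hc0 : c ≠ 0 := by
      rintro rfl
      have := htv i₀ hi₀
      rw [hval, zero_mul] at this
      exact mul_ne_zero ht (hu i₀ hi₀) this.symm
    refine harg p (by simp [hargs]) ⟨c⁻¹ * t, mul_ne_zero (inv_ne_zero hc0) ht, fun i hi => ?_⟩
    have h1 := htv i hi
    rw [hval] at h1
    rw [mul_assoc, ← h1]
    field_simp

/-- The additions needed before the first value with full support on `S`. -/
theorem nonfull_bound {C : Circuit ι κ} {f : C.G → ι → ℂ} (hf : C.IsForms f) {S : Finset ι}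
    (hS : 2 ≤ S.card) (hex : ∃ g, Full S (f g)) :
    ∃ H : Finset C.G, (∀ h ∈ H, h ∈ alive C f S ∧ ¬ Full S (f h)) ∧ S.card ≤ H.card + 2 := by
  classical
  obtain ⟨g₁, hg₁⟩ := hex
  obtain ⟨g₀, hg₀, hmin⟩ := Finset.exists_min_image (univ.filter fun g => Full S (f g)) C.depth
    ⟨g₁, by simpa using hg₁⟩
  rw [mem_filter] at hg₀
  have hfull := hg₀.2
  set H : Finset C.G := (alive C f S).filter fun h => C.depth h < C.depth g₀ with hH
  refine ⟨H, fun h hh => ?_, ?_⟩
  · rw [hH, mem_filter] at hh
    refine ⟨hh.1, fun hF => ?_⟩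
    have := hmin h (by simpa using hF)
    omega
  -- the graph
  set K : Finset C.G := insert g₀ H with hK
  obtain ⟨i₀, hi₀⟩ : S.Nonempty := Finset.card_pos.1 (by omega)
  have hab : ∀ h ∈ alive C f S, ∃ a b : S, ∀ p q, (C.gate h).args = [p, q] →
      C.cell f p a ≠ 0 ∧ C.cell f q b ≠ 0 := by
    intro h hh
    obtain ⟨hadd, hv⟩ := mem_alive.1 hh
    obtain ⟨p, q, s, hs, hargs, hval⟩ := eval_add hf hadd
    have hp := hv p (by simp [hargs])
    have hq := hv q (by simp [hargs])
    unfold Van at hp hq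
    push Not at hp hq
    obtain ⟨a, ha, ha'⟩ := hp
    obtain ⟨b, hb, hb'⟩ := hq
    refine ⟨⟨a, ha⟩, ⟨b, hb⟩, fun p' q' h' => ?_⟩
    rw [hargs] at h'
    simp only [List.cons.injEq, and_true] at h'
    rw [← h'.1, ← h'.2]
    exact ⟨ha', hb'⟩
  let e : C.G → Sym2 S := fun h =>
    if hh : h ∈ alive C f S then s((hab h hh).choose, (hab h hh).choose_spec.choose)
    else s(⟨i₀, hi₀⟩, ⟨i₀, hi₀⟩)
  set Gr : SimpleGraph S := SimpleGraph.fromEdgeSet (e '' (K : Set C.G)) with hGr
  have hedge : ∀ h ∈ K, h ∈ alive C f S → ∀ p q, (C.gate h).args = [p, q] →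
      ∃ a b : S, C.cell f p a ≠ 0 ∧ C.cell f q b ≠ 0 ∧ Gr.Reachable a b := by
    intro h hhK hh p q hargs
    have hsp := (hab h hh).choose_spec.choose_spec p q hargs
    refine ⟨_, _, hsp.1, hsp.2, ?_⟩
    by_cases hne : (hab h hh).choose = (hab h hh).choose_spec.choose
    · rw [← hne]
    · refine SimpleGraph.Adj.reachable ?_
      rw [hGr, SimpleGraph.fromEdgeSet_adj]
      refine ⟨⟨h, hhK, ?_⟩, hne⟩
      simp only [e, dif_pos hh]
  have key : ∀ c : Option ι ⊕ C.G,
      (∀ h, c = Sum.inr h → C.depth h < C.depth g₀ ∨ h = g₀) →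
      ∀ u v : S, C.cell f c u ≠ 0 → C.cell f c v ≠ 0 → Gr.Reachable u v := by
    refine cell_induction C ?_ ?_
    · intro o _ u v hu hv
      match o with
      | none => simp [Circuit.cell] at hu
      | some l =>
        simp only [Circuit.cell, ne_eq, Pi.single_apply, ite_eq_right_iff, one_ne_zero, imp_false,
          not_not] at hu hv
        have : u = v := Subtype.ext (hu.trans hv.symm)
        rw [this]
    · intro h ih hh u v hu hv
      have hh' := hh h rfl
      have hargd : ∀ c ∈ (C.gate h).args, ∀ h', c = Sum.inr h' →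
          C.depth h' < C.depth g₀ ∨ h' = g₀ := by
        rintro c hc h' rfl
        have h1 := C.depth_lt h h' hc
        left
        rcases hh' with h2 | h2
        · omega
        · rw [h2] at h1; exact h1
      by_cases hadd : (C.gate h).IsAdd
      · obtain ⟨p, q, s, hs, hargs, hval⟩ := eval_add hf hadd
        have ihp := ih p (by simp [hargs]) (hargd p (by simp [hargs]))
        have ihq := ih q (by simp [hargs]) (hargd q (by simp [hargs]))
        change f h u ≠ 0 at hu
        change f h v ≠ 0 at hv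
        rw [hval] at hu hv
        by_cases hvp : Van S (C.cell f p)
        · rw [hvp u u.2, zero_add] at hu
          rw [hvp v v.2, zero_add] at hv
          exact ihq u v (right_ne_zero_of_mul hu) (right_ne_zero_of_mul hv)
        by_cases hvq : Van S (C.cell f q)
        · rw [hvq u u.2, mul_zero, add_zero] at hu
          rw [hvq v v.2, mul_zero, add_zero] at hv
          exact ihp u v hu hv
        have hal : h ∈ alive C f S := by
          rw [mem_alive]
          refine ⟨hadd, fun c hc => ?_⟩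
          rw [hargs] at hc
          simp only [List.mem_cons, List.not_mem_nil, or_false] at hc
          rcases hc with rfl | rfl
          · exact hvp
          · exact hvq
        have hKm : h ∈ K := by
          rw [hK, mem_insert]
          rcases hh' with h2 | h2
          · right; rw [hH, mem_filter]; exact ⟨hal, h2⟩
          · left; exact h2
        obtain ⟨a, b, ha, hb, hr⟩ := hedge h hKm hal p q hargs
        have hto : ∀ w : S, C.cell f p w + s * C.cell f q w ≠ 0 → Gr.Reachable w a := by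
          intro w hw
          by_cases hpw : C.cell f p w = 0
          · rw [hpw, zero_add] at hw
            exact (ihq w b (right_ne_zero_of_mul hw) hb).trans hr.symm
          · exact ihp w a hpw ha
        exact (hto u hu).trans (hto v hv).symm
      · obtain ⟨p, c, -, hargs, hval⟩ := eval_smul hf hadd
        have ihp := ih p (by simp [hargs]) (hargd p (by simp [hargs]))
        change f h u ≠ 0 at hu
        change f h v ≠ 0 at hv
        rw [hval] at hu hv
        exact ihp u v (right_ne_zero_of_mul hu) (right_ne_zero_of_mul hv)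
  have hconn : Gr.Connected := by
    have : Nonempty S := ⟨⟨i₀, hi₀⟩⟩
    rw [SimpleGraph.connected_iff]
    refine ⟨fun u v => ?_, inferInstance⟩
    exact key (Sum.inr g₀) (fun h hh => Or.inr (Sum.inr.inj hh).symm) u v
      (hfull u u.2) (hfull v v.2)
  have h1 := hconn.card_vert_le_card_edgeSet_add_one
  have h2 : Nat.card Gr.edgeSet ≤ K.card := by
    have hsub : Gr.edgeSet ⊆ e '' (K : Set C.G) := by
      rw [hGr, SimpleGraph.edgeSet_fromEdgeSet]
      exact Set.sdiff_subset
    have h3 : Nat.card Gr.edgeSet = Gr.edgeSet.ncard := rfl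
    rw [h3]
    refine (Set.ncard_le_ncard hsub (Set.toFinite _)).trans ?_
    refine (Set.ncard_image_le (Set.toFinite _)).trans ?_
    rw [Set.ncard_coe_finset]
  have h4 : K.card ≤ H.card + 1 := card_insert_le _ _
  have h5 : Nat.card S = S.card := by simp
  omega

/-- Pairwise non-proportional outputs. -/
theorem classes_bound {A : Matrix κ ι ℂ} {C : Circuit ι κ} {f : C.G → ι → ℂ} (hf : C.IsForms f)
    (hA : ∀ k i, C.cell f (C.out k) i = A k i) (h0 : ∀ k i, A k i ≠ 0) [Nonempty κ]
    {S : Finset ι} (hS : 2 ≤ S.card)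
    (hrow : ∀ k k', k ≠ k' → ∀ t : ℂ, ∃ i ∈ S, A k i ≠ t * A k' i) :
    Fintype.card κ + S.card ≤ (alive C f S).card + 2 := by
  classical
  have hF : ∀ k, Full S (A k) := fun k i _ => h0 k i
  have hex : ∀ k, ∃ g, g ∈ alive C f S ∧ Prop' S (f g) (A k) := fun k =>
    first_prop hf hS (hF k) (c := C.out k) ⟨1, one_ne_zero, fun i _ => by rw [hA, one_mul]⟩
  choose φ hφ1 hφ2 using hex
  have hinj : Function.Injective φ := by
    intro k k' hkk
    by_contra hne
    obtain ⟨t, ht, h1⟩ := hφ2 k
    obtain ⟨t', ht', h2⟩ := hφ2 k'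
    rw [← hkk] at h2
    obtain ⟨i, hi, hi2⟩ := hrow k k' hne (t⁻¹ * t')
    apply hi2
    have := (h1 i hi).symm.trans (h2 i hi)
    rw [mul_assoc, ← this]
    field_simp
  have hfull : ∀ k, Full S (f (φ k)) := by
    intro k i hi
    obtain ⟨t, ht, h1⟩ := hφ2 k
    rw [h1 i hi]
    exact mul_ne_zero ht (h0 k i)
  obtain ⟨k₀⟩ := ‹Nonempty κ›
  obtain ⟨H, hH, hHc⟩ := nonfull_bound hf hS ⟨φ k₀, hfull k₀⟩
  have hdisj : Disjoint (univ.image φ) H := by
    rw [disjoint_left]
    intro g hg hgH
    rw [mem_image] at hg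
    obtain ⟨k, -, rfl⟩ := hg
    exact (hH _ hgH).2 (hfull k)
  have hsub : univ.image φ ∪ H ⊆ alive C f S := by
    refine union_subset ?_ fun h hh => (hH h hh).1
    intro g hg
    rw [mem_image] at hg
    obtain ⟨k, -, rfl⟩ := hg
    exact hφ1 k
  have h1 := card_le_card hsub
  rw [card_union_of_disjoint hdisj, card_image_of_injective _ hinj, card_univ] at h1
  omega

/-- The bound for the additions: `2 (|ι| - s) + |κ| + s - 2` if all outputs are pairwise
non-proportional on every set of `s` inputs. -/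
theorem adds_bound {A : Matrix κ ι ℂ} {C : Circuit ι κ} {f : C.G → ι → ℂ} (hf : C.IsForms f)
    (hA : ∀ k i, C.cell f (C.out k) i = A k i) (h0 : ∀ k i, A k i ≠ 0) [Nonempty κ]
    (hcol : ∀ i j, i ≠ j → ∀ a b : ℂ, a ≠ 0 → b ≠ 0 → ∃ k, b * A k i ≠ a * A k j)
    {s : ℕ} (hs : 2 ≤ s) (hsn : s ≤ Fintype.card ι)
    (hrow : ∀ S : Finset ι, S.card = s → ∀ k k', k ≠ k' → ∀ t : ℂ, ∃ i ∈ S, A k i ≠ t * A k' i) :
    2 * Fintype.card ι + Fintype.card κ ≤ C.adds.card + s + 2 := by
  classical
  have key : ∀ m : ℕ, ∀ S : Finset ι, S.card = s + m →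
      2 * m + Fintype.card κ + s ≤ (alive C f S).card + 2 := by
    intro m
    induction m with
    | zero =>
      intro S hS
      have := classes_bound hf hA h0 (S := S) (by omega) (hrow S (by omega))
      omega
    | succ m ih =>
      intro S hS
      obtain ⟨i, hi, hd⟩ := exists_drop hf hA h0 (S := S) (by omega)
        (fun i _ j _ hij => hcol i j hij)
      have h1 := ih (S.erase i) (by rw [card_erase_of_mem hi]; omega)
      omega
  have h1 := key (Fintype.card ι - s) univ (by rw [card_univ]; omega)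
  have h2 := card_le_card (alive_subset_adds (C := C) (f := f) (S := univ))
  omega

end H992

end Vale.Agent.P344
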