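import Vale.Agent.P344.H992.Cyc

/-!
# Irrational scalar gates: a cyclic convolution with rationally independent entries
-/

set_option linter.unusedSectionVars false

namespace Vale.Agent.P344

open Finset Submodule Polynomial

namespace H992

section general

variable {ν : Type} [Fintype ν]

theorem exists_dual {ι : Type} {v : ι → ℂ} (hv : LinearIndependent ℚ v) (φ : ι → ℚ) :
    ∃ f : ℂ →ₗ[ℚ] ℚ, ∀ i, f (v i) = φ i := by
  obtain ⟨f, hf⟩ := LinearMap.exists_extend ((Module.Basis.span hv).constr ℚ φ)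
  refine ⟨f, fun i => ?_⟩
  have h1 : ((Module.Basis.span hv i : span ℚ (Set.range v)) : ℂ) = v i := by
    rw [Module.Basis.span_apply hv i]
  have h2 := congrArg (fun g => g (Module.Basis.span hv i)) hf
  simp only [LinearMap.comp_apply, Submodule.subtype_apply, h1, Module.Basis.constr_basis] at h2
  exact h2

theorem exists_dual_irr {c : ℂ} (hc : c ∉ Set.range ((↑) : ℚ → ℂ)) :
    ∃ f : ℂ →ₗ[ℚ] ℚ, f 1 = 0 ∧ f c = 1 := by
  have hli : LinearIndependent ℚ ![(1 : ℂ), c] := by
    rw [LinearIndependent.pair_iff]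
    intro s t h
    have ht : t = 0 := by
      by_contra ht
      apply hc
      refine ⟨-(s / t), ?_⟩
      have ht' : (t : ℂ) ≠ 0 := by exact_mod_cast ht
      simp only [Rat.smul_def, mul_one] at h
      push_cast
      field_simp
      linear_combination -h
    subst ht
    simp only [zero_smul, add_zero, Rat.smul_def, mul_one] at h
    exact ⟨by exact_mod_cast h, rfl⟩
  obtain ⟨f, hf⟩ := exists_dual hli ![0, 1]
  exact ⟨f, by simpa using hf 0, by simpa using hf 1⟩

theorem f_cast (f : ℂ →ₗ[ℚ] ℚ) (q : ℚ) : f (q : ℂ) = q * f 1 := by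
  have : (q : ℂ) = q • (1 : ℂ) := by simp [Rat.smul_def]
  rw [this, map_smul, smul_eq_mul]

/-- The complex span of a space of rational vectors. -/
noncomputable def CR (R : Submodule ℚ (ν → ℚ)) : Submodule ℂ (ν → ℂ) := span ℂ (inc '' (R : Set _))

theorem CR_mono {R R' : Submodule ℚ (ν → ℚ)} (h : R ≤ R') : CR R ≤ CR R' :=
  span_mono (Set.image_mono h)

theorem fun_mem {R : Submodule ℚ (ν → ℚ)} {w : ν → ℂ} (hw : w ∈ CR R) :
    ∀ f : ℂ →ₗ[ℚ] ℚ, (fun a => f (w a)) ∈ R := by
  induction hw using Submodule.span_induction with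
  | mem x hx =>
    obtain ⟨ρ, hρ, rfl⟩ := hx
    intro f
    have : (fun a => f (inc ρ a)) = f 1 • ρ := by
      ext a
      simp only [inc_apply, f_cast, Pi.smul_apply, smul_eq_mul]
      ring
    rw [this]
    exact R.smul_mem _ hρ
  | zero =>
    intro f
    have : (fun a => f ((0 : ν → ℂ) a)) = 0 := by ext a; simp
    rw [this]
    exact R.zero_mem
  | add x y _ _ hx hy =>
    intro f
    have : (fun a => f ((x + y) a)) = (fun a => f (x a)) + fun a => f (y a) := by
      ext a; simp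
    rw [this]
    exact R.add_mem (hx f) (hy f)
  | smul z x _ hx =>
    intro f
    have := hx (f.comp (LinearMap.mulLeft ℚ z))
    simpa using this

/-- `U` lies in the rational vectors plus the complex span of `R`. -/
def Cov (U : Submodule ℚ (ν → ℂ)) (R : Submodule ℚ (ν → ℚ)) : Prop :=
  ∀ u ∈ U, ∃ ρ, u - inc ρ ∈ CR R

theorem Cov.fun_mem {U : Submodule ℚ (ν → ℂ)} {R : Submodule ℚ (ν → ℚ)} (h : Cov U R)
    {u : ν → ℂ} (hu : u ∈ U) {f : ℂ →ₗ[ℚ] ℚ} (hf : f 1 = 0) : (fun a => f (u a)) ∈ R := by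
  obtain ⟨ρ, hρ⟩ := h u hu
  have h1 := H992.fun_mem hρ f
  have : (fun a => f (u a)) = fun a => f ((u - inc ρ) a) := by
    ext a
    simp [f_cast, hf]
  rw [this]
  exact h1

theorem Cov.step {U : Submodule ℚ (ν → ℂ)} {R : Submodule ℚ (ν → ℚ)} (h : Cov U R)
    {ℓ : ν → ℂ} {ρ : ν → ℚ} (hρ : ℓ - inc ρ ∈ CR R) (c : ℂ) :
    Cov (U ⊔ span ℚ {c • ℓ}) (R ⊔ span ℚ {ρ}) := by
  intro u hu
  obtain ⟨u₁, hu₁, z, hz, rfl⟩ := mem_sup.1 hu
  obtain ⟨q, rfl⟩ := mem_span_singleton.1 hz
  obtain ⟨ρ₁, hρ₁⟩ := h u₁ hu₁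
  refine ⟨ρ₁, ?_⟩
  have e : u₁ + q • c • ℓ - inc ρ₁ = (u₁ - inc ρ₁) + ((q : ℂ) * c) • (ℓ - inc ρ) +
      ((q : ℂ) * c) • inc ρ := by
    ext a
    simp only [Pi.add_apply, Pi.sub_apply, Pi.smul_apply, smul_eq_mul, Rat.smul_def]
    ring
  rw [e]
  refine add_mem (add_mem (CR_mono le_sup_left hρ₁) (smul_mem _ _ (CR_mono le_sup_left hρ))) ?_
  exact smul_mem _ _ (subset_span ⟨ρ, mem_sup_right (mem_span_singleton_self ρ), rfl⟩)

theorem comap_sup_span {V W : Type*} [AddCommGroup V] [Module ℚ V] [AddCommGroup W] [Module ℚ W]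
    (f : V →ₗ[ℚ] W) (U : Submodule ℚ W) (v : W) :
    (U ⊔ span ℚ {v}).comap f = U.comap f ∨
      ∃ r ∈ (U ⊔ span ℚ {v}).comap f, (∃ u ∈ U, ∃ q : ℚ, q ≠ 0 ∧ f r = u + q • v) ∧
        (U ⊔ span ℚ {v}).comap f ≤ U.comap f ⊔ span ℚ {r} := by
  by_cases h : (U ⊔ span ℚ {v}).comap f ≤ U.comap f
  · exact Or.inl (le_antisymm h (comap_mono le_sup_left))
  · right
    obtain ⟨r, hr, hr'⟩ := Set.not_subset.1 h
    have hr1 := hr
    rw [SetLike.mem_coe, mem_comap] at hr1
    obtain ⟨u, hu, z, hz, huz⟩ := mem_sup.1 hr1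
    obtain ⟨q, rfl⟩ := mem_span_singleton.1 hz
    have hq : q ≠ 0 := by
      rintro rfl
      apply hr'
      rw [SetLike.mem_coe, mem_comap, ← huz, zero_smul, add_zero]
      exact hu
    refine ⟨r, hr, ⟨u, hu, q, hq, huz.symm⟩, ?_⟩
    intro s hs
    rw [mem_comap] at hs
    obtain ⟨u', hu', z', hz', huz'⟩ := mem_sup.1 hs
    obtain ⟨q', rfl⟩ := mem_span_singleton.1 hz'
    have h1 : s - (q' / q) • r ∈ U.comap f := by
      rw [mem_comap, map_sub, map_smul, ← huz, ← huz']
      have : u' + q' • v - (q' / q) • (u + q • v) = u' - (q' / q) • u := by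
        rw [smul_add, smul_smul, div_mul_cancel₀ _ hq]
        abel
      rw [this]
      exact U.sub_mem hu' (U.smul_mem _ hu)
    have h2 : s = (s - (q' / q) • r) + (q' / q) • r := by abel
    rw [h2]
    exact add_mem (mem_sup_left h1) (mem_sup_right (smul_mem _ _ (mem_span_singleton_self r)))

end general

variable {N : ℕ} [NeZero N]

/-- Rational combinations of the rows of the cyclic matrix of `θ`. -/
noncomputable def Ym (θ : ZMod N → ℂ) : (ZMod N → ℚ) →ₗ[ℚ] (ZMod N → ℂ) where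
  toFun r a := ∑ b, (r b : ℂ) * θ (a - b)
  map_add' x y := by ext j; simp [add_mul, Finset.sum_add_distrib]
  map_smul' q x := by ext j; simp [Rat.smul_def, Finset.mul_sum, mul_assoc]

theorem Ym_apply (θ : ZMod N → ℂ) (r : ZMod N → ℚ) (a : ZMod N) :
    Ym θ r a = ∑ b, (r b : ℂ) * θ (a - b) := rfl

theorem f_Ym (θ : ZMod N → ℂ) (f : ℂ →ₗ[ℚ] ℚ) (r : ZMod N → ℚ) :
    (fun a => f (Ym θ r a)) = conv r fun c => f (θ c) := by
  ext a
  rw [Ym_apply, map_sum, conv]
  refine Finset.sum_congr rfl fun b _ => ?_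
  have : (r b : ℂ) * θ (a - b) = r b • θ (a - b) := by simp [Rat.smul_def]
  rw [this, map_smul, smul_eq_mul]

open Classical in
/-- The potential inequality. -/
def Pot (θ : ZMod N → ℂ) (m : ℕ) (U : Submodule ℚ (ZMod N → ℂ)) : Prop :=
  ∃ R : Submodule ℚ (ZMod N → ℚ), Cov U R ∧
    Module.finrank ℚ (U.comap (Ym θ)) + Module.finrank ℚ R +
      (if J (Dv (U.comap (Ym θ))) ≤ R then 0 else 1) ≤
        m + 1 + 2 * (Dv (U.comap (Ym θ))).card

section

variable {θ : ZMod N → ℂ} (hθ : LinearIndependent ℚ θ) (hsum : ∑ c, θ c = -1)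

include hθ hsum

theorem exists_f0 {φ : ZMod N → ℚ} (hφ : ∑ c, φ c = 0) :
    ∃ f : ℂ →ₗ[ℚ] ℚ, f 1 = 0 ∧ (fun c => f (θ c)) = φ := by
  obtain ⟨f, hf⟩ := exists_dual hθ φ
  refine ⟨f, ?_, funext hf⟩
  have h1 : (1 : ℂ) = -∑ c, θ c := by rw [hsum]; ring
  rw [h1, map_neg, map_sum, Finset.sum_congr rfl fun c _ => hf c, hφ, neg_zero]

/-- the ideal of a generic attained combination lies in `R` up to one dimension -/
theorem conv_mem {U : Submodule ℚ (ZMod N → ℂ)} {R : Submodule ℚ (ZMod N → ℚ)} (h : Cov U R)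
    {r : ZMod N → ℚ} (hr : r ∈ U.comap (Ym θ)) {φ : ZMod N → ℚ} (hφ : ∑ c, φ c = 0) :
    conv r φ ∈ R := by
  obtain ⟨f, hf, rfl⟩ := exists_f0 hθ hsum hφ
  rw [← f_Ym]
  exact h.fun_mem hr hf

theorem conv_split (r φ : ZMod N → ℚ) :
    ∃ φ' : ZMod N → ℚ, ∑ c, φ' c = 0 ∧ ∃ s : ℚ, conv r φ = conv r φ' + s • r := by
  refine ⟨φ - (∑ c, φ c) • Pi.single 0 1, ?_, ∑ c, φ c, ?_⟩
  · simp [Finset.sum_sub_distrib, ← Finset.mul_sum]
  · ext a
    simp only [conv, Pi.sub_apply, Pi.smul_apply, smul_eq_mul, Pi.add_apply, mul_sub,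
      Finset.sum_sub_distrib]
    have : ∑ b, r b * ((∑ c, φ c) * (Pi.single 0 1 : ZMod N → ℚ) (a - b)) =
        (∑ c, φ c) * r a := by
      rw [Finset.sum_eq_single a]
      · simp; ring
      · intro b _ hb
        rw [Pi.single_apply, if_neg (fun h => hb (sub_eq_zero.1 h).symm)]
        ring
      · intro h
        exact absurd (mem_univ a) h
    rw [this]
    ring

theorem pot_zero : Pot θ 0 (rat (ZMod N)) := by
  classical
  refine ⟨⊥, ?_, ?_⟩
  · rintro _ ⟨ρ, rfl⟩
    exact ⟨ρ, by rw [sub_self]; exact zero_mem _⟩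
  have hconst : ∀ r ∈ (rat (ZMod N)).comap (Ym θ), ∃ q : ℚ, r = fun _ => q := by
    intro r hr
    obtain ⟨ρ, hρ⟩ := mem_comap.1 hr
    have h0 := congrFun hρ 0
    rw [inc_apply, Ym_apply] at h0
    refine ⟨-ρ 0, ?_⟩
    have hli : LinearIndependent ℚ (fun b : ZMod N => θ (0 - b)) :=
      hθ.comp (fun b => 0 - b) (fun x y h => by simpa using h)
    have hs : ∑ b : ZMod N, θ (0 - b) = -1 := by
      rw [← hsum]
      exact Equiv.sum_comp (Equiv.subLeft (0 : ZMod N)) θ
    have h1 : ∑ b, (r b + ρ 0) • θ (0 - b) = 0 := by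
      simp only [add_smul, Finset.sum_add_distrib, ← Finset.smul_sum, hs]
      simp only [Rat.smul_def]
      rw [← h0]
      ring
    have h2 := Fintype.linearIndependent_iff.1 hli _ h1
    ext b
    linarith [h2 b]
  by_cases hbot : (rat (ZMod N)).comap (Ym θ) = ⊥
  · rw [hbot, finrank_bot]
    split_ifs <;> simp
  · have h1 : Module.finrank ℚ ((rat (ZMod N)).comap (Ym θ)) ≤ 1 := by
      have h2 : (rat (ZMod N)).comap (Ym θ) ≤ span ℚ {fun _ => 1} := by
        intro r hr
        obtain ⟨q, rfl⟩ := hconst r hr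
        rw [mem_span_singleton]
        exact ⟨q, by ext; simp⟩
      refine (Submodule.finrank_mono h2).trans ?_
      refine (finrank_span_le_card _).trans ?_
      simp
    obtain ⟨r, hr, hr0⟩ := (Submodule.ne_bot_iff _).1 hbot
    obtain ⟨q, rfl⟩ := hconst r hr
    have hq : q ≠ 0 := by
      rintro rfl
      exact hr0 rfl
    have h3 : 1 ∈ Dv ((rat (ZMod N)).comap (Ym θ)) := by
      rw [mem_Dv]
      refine ⟨Nat.one_mem_divisors.2 (NeZero.ne N), _, hr, ?_⟩
      rw [Ev_apply]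
      have : om 1 = 1 := by simp [om, Complex.exp_two_pi_mul_I]
      rw [this]
      simp only [one_pow, mul_one, Finset.sum_const, Finset.card_univ, ZMod.card, nsmul_eq_mul]
      exact mul_ne_zero (by exact_mod_cast NeZero.ne N) (by exact_mod_cast hq)
    have h4 : 1 ≤ (Dv ((rat (ZMod N)).comap (Ym θ))).card := card_pos.2 ⟨_, h3⟩
    rw [finrank_bot]
    split_ifs <;> omega

theorem pot_step {m : ℕ} {U : Submodule ℚ (ZMod N → ℂ)} (h : Pot θ m U) {ℓ : ZMod N → ℂ}
    (hℓ : ℓ ∈ U) {c : ℂ} (hc : c ∉ Set.range ((↑) : ℚ → ℂ)) :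
    Pot θ (m + 1) (U ⊔ span ℚ {c • ℓ}) := by
  classical
  obtain ⟨R, hcov, hineq⟩ := h
  obtain ⟨ρ, hρ⟩ := hcov ℓ hℓ
  refine ⟨R ⊔ span ℚ {ρ}, hcov.step hρ c, ?_⟩
  have hR' := finrank_sup_span_le R ρ
  set S := U.comap (Ym θ) with hS
  set S' := (U ⊔ span ℚ {c • ℓ}).comap (Ym θ) with hS'
  set R' := R ⊔ span ℚ {ρ} with hR'def
  have hSS' : S ≤ S' := comap_mono le_sup_left
  have hRR' : R ≤ R' := le_sup_left
  rcases comap_sup_span (Ym θ) U (c • ℓ) with heq | ⟨r, hr, ⟨u, hu, q, hq, hrq⟩, hle⟩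
  · have heq' : S' = S := heq
    rw [heq']
    by_cases hc1 : J (Dv S) ≤ R
    · rw [if_pos hc1] at hineq
      rw [if_pos (hc1.trans hRR')]
      omega
    · rw [if_neg hc1] at hineq
      split_ifs <;> omega
  · have hfS : Module.finrank ℚ S' ≤ Module.finrank ℚ S + 1 :=
      (Submodule.finrank_mono hle).trans (finrank_sup_span_le S r)
    by_cases hD : Dv S' = Dv S
    · rw [hD]
      by_cases hρR : ρ ∈ R
      · have hRe : R' = R := by
          rw [hR'def, sup_eq_left, span_singleton_le_iff_mem]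
          exact hρR
        rw [hRe]
        split_ifs at hineq ⊢ <;> omega
      · obtain ⟨f, hf1, hfc⟩ := exists_dual_irr hc
        have e1 : (fun a => f (Ym θ r a)) = (fun a => f (u a)) +
            q • ((fun a => f ((c • (ℓ - inc ρ)) a)) + ρ) := by
          rw [hrq]
          ext a
          have e2 : (u + q • c • ℓ) a = u a + q • ((c • (ℓ - inc ρ)) a) +
              (q * ρ a) • c := by
            simp only [Pi.add_apply, Pi.smul_apply, Pi.sub_apply, inc_apply, smul_eq_mul,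
              Rat.smul_def]
            push_cast
            ring
          rw [e2, map_add, map_add, map_smul, map_smul, hfc]
          simp only [Pi.add_apply, Pi.smul_apply, smul_eq_mul]
          ring
        have m1 : (fun a => f (u a)) ∈ R := hcov.fun_mem hu hf1
        have m2 : (fun a => f ((c • (ℓ - inc ρ)) a)) ∈ R :=
          H992.fun_mem (smul_mem _ _ hρ) f
        set j := (fun a => f (Ym θ r a)) with hj
        have hjJ : j ∈ J (Dv S) := by
          rw [hj, f_Ym, ← hD]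
          exact conv_mem_J (le_J_Dv S' hr) _
        have hjR : j ∉ R := by
          intro hjR
          apply hρR
          have h1 : q • ρ ∈ R := by
            have : q • ρ = j - (fun a => f (u a)) - q • (fun a => f ((c • (ℓ - inc ρ)) a)) := by
              rw [e1, smul_add]; abel
            rw [this]
            exact R.sub_mem (R.sub_mem hjR m1) (R.smul_mem _ m2)
          have h2 := R.smul_mem q⁻¹ h1
          rwa [smul_smul, inv_mul_cancel₀ hq, one_smul] at h2
        have hjR' : j ∈ R' := by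
          rw [e1]
          refine add_mem (hRR' m1) (smul_mem _ _ (add_mem (hRR' m2) ?_))
          exact mem_sup_right (mem_span_singleton_self ρ)
        have hnot : ¬ J (Dv S) ≤ R := fun h => hjR (h hjJ)
        rw [if_neg hnot] at hineq
        -- the ideal lies in `R'`
        obtain ⟨r₀, hr₀, hgen⟩ := exists_generic S
        have hdec : ∀ x ∈ J (Dv S), ∃ y ∈ R, ∃ s : ℚ, x = y + s • r₀ := by
          intro x hx
          obtain ⟨φ, rfl⟩ := exists_conv (Dv_subset S) hgen hx
          obtain ⟨φ', hφ', s, hs⟩ := conv_split hθ hsum r₀ φ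
          exact ⟨_, conv_mem hθ hsum hcov hr₀ hφ', s, hs⟩
        obtain ⟨y, hy, s, hjs⟩ := hdec j hjJ
        have hs0 : s ≠ 0 := by
          rintro rfl
          apply hjR
          rw [hjs, zero_smul, add_zero]
          exact hy
        have hr₀R' : r₀ ∈ R' := by
          have : r₀ = s⁻¹ • (j - y) := by
            rw [hjs, add_sub_cancel_left, smul_smul, inv_mul_cancel₀ hs0, one_smul]
          rw [this]
          exact smul_mem _ _ (sub_mem hjR' (hRR' hy))
        have hJR' : J (Dv S) ≤ R' := by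
          intro x hx
          obtain ⟨y, hy, s, rfl⟩ := hdec x hx
          exact add_mem (hRR' hy) (smul_mem _ _ hr₀R')
        rw [if_pos hJR']
        omega
    · have hcard : (Dv S).card < (Dv S').card :=
        card_lt_card ((Dv_mono hSS').ssubset_of_ne (Ne.symm hD))
      split_ifs at hineq ⊢ <;> omega

theorem reach_pot {m : ℕ} {U : Submodule ℚ (ZMod N → ℂ)} (h : Reach m U) : Pot θ m U := by
  induction h with
  | zero => exact pot_zero hθ hsum
  | step _ hℓ hc ih => exact pot_step hθ hsum ih hℓ hc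

/-- **Core bound**: all rows of the cyclic matrix of `θ` need `2 N - 1 - 2 d(N)` irrational scalar
multiplications. -/
theorem cyc_bound {m : ℕ} {U : Submodule ℚ (ZMod N → ℂ)} (h : Reach m U)
    (hU : ∀ b, (fun a => θ (a - b)) ∈ U) : 2 * N ≤ m + 1 + 2 * N.divisors.card := by
  classical
  obtain ⟨R, hcov, hineq⟩ := reach_pot hθ hsum h
  have htop : U.comap (Ym θ) = ⊤ := by
    rw [eq_top_iff]
    intro r _
    rw [mem_comap]
    have : Ym θ r = ∑ b, r b • (fun a => θ (a - b)) := by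
      ext a
      simp [Ym_apply, Rat.smul_def]
    rw [this]
    exact U.sum_mem fun b _ => U.smul_mem _ (hU b)
  rw [htop] at hineq
  have h1 : Module.finrank ℚ (⊤ : Submodule ℚ (ZMod N → ℚ)) = N := by
    rw [finrank_top]
    simp
  have h2 : (Dv (⊤ : Submodule ℚ (ZMod N → ℚ))).card ≤ N.divisors.card :=
    card_le_card (Dv_subset _)
  have h3 : (⊤ : Submodule ℚ (ZMod N → ℚ)) ≤ R ⊔ span ℚ {Pi.single 0 1} := by
    intro x _
    have e : x = (x - (∑ c, x c) • Pi.single 0 1) + (∑ c, x c) • Pi.single 0 1 := by abel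
    rw [e]
    refine add_mem (mem_sup_left ?_) (mem_sup_right (smul_mem _ _ (mem_span_singleton_self _)))
    have h4 : conv (Pi.single 0 1) (x - (∑ c, x c) • Pi.single 0 1) ∈ R := by
      refine conv_mem hθ hsum hcov (by rw [htop]; exact mem_top) ?_
      simp [Finset.sum_sub_distrib, ← Finset.mul_sum]
    have h5 : ∀ φ : ZMod N → ℚ, conv (Pi.single 0 1) φ = φ := by
      intro φ
      ext a
      simp only [conv]
      rw [Finset.sum_eq_single 0]
      · simp
      · intro b _ hb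
        rw [Pi.single_apply, if_neg hb, zero_mul]
      · intro h
        exact absurd (mem_univ _) h
    rwa [h5] at h4
  have h6 : N ≤ Module.finrank ℚ R + 1 :=
    le_trans (le_of_eq h1.symm) ((Submodule.finrank_mono h3).trans (finrank_sup_span_le R _))
  split_ifs at hineq with hJ
  · have hR : R = ⊤ := by
      rw [eq_top_iff]
      exact (le_J_Dv ⊤).trans hJ
    rw [hR, h1] at hineq
    omega
  · omega

end

end H992

end Vale.Agent.P344
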