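import Vale.Agent.P344.H992.Reach

/-!
# The group algebra `ℚ[ℤ/N]`
-/

set_option linter.unusedSectionVars false

namespace Vale.Agent.P344

open Finset Submodule Polynomial

namespace H992

variable {N : ℕ} [NeZero N]

/-- `e^{2πi/d}` -/
noncomputable def om (d : ℕ) : ℂ := Complex.exp (2 * Real.pi * Complex.I / d)

theorem om_prim {d : ℕ} (hd : d ≠ 0) : IsPrimitiveRoot (om d) d := Complex.isPrimitiveRoot_exp d hd

/-- The value of `r` at `e^{2πi/d}`. -/
noncomputable def Ev (d : ℕ) : (ZMod N → ℚ) →ₗ[ℚ] ℂ where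
  toFun r := ∑ b, (r b : ℂ) * om d ^ b.val
  map_add' x y := by simp [add_mul, Finset.sum_add_distrib]
  map_smul' q x := by simp [Rat.smul_def, Finset.mul_sum, mul_assoc]

theorem Ev_apply (d : ℕ) (r : ZMod N → ℚ) : Ev d r = ∑ b, (r b : ℂ) * om d ^ b.val := rfl

/-- Convolution. -/
def conv (r φ : ZMod N → ℚ) (a : ZMod N) : ℚ := ∑ b, r b * φ (a - b)

theorem om_pow_add {d : ℕ} (hd : d ∣ N) (a b : ZMod N) :
    om d ^ (a + b).val = om d ^ a.val * om d ^ b.val := by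
  have hd0 : d ≠ 0 := fun h => NeZero.ne N (by rw [h] at hd; exact Nat.eq_zero_of_zero_dvd hd)
  have h1 : om d ^ N = 1 := by
    obtain ⟨m, rfl⟩ := hd
    rw [pow_mul, (om_prim hd0).pow_eq_one, one_pow]
  rw [ZMod.val_add, ← pow_eq_pow_mod _ h1, pow_add]

theorem Ev_conv {d : ℕ} (hd : d ∣ N) (r φ : ZMod N → ℚ) :
    Ev d (conv r φ) = Ev d r * Ev d φ := by
  rw [Ev_apply, Ev_apply, Finset.sum_mul]
  have h1 : ∀ a, ((conv r φ a : ℚ) : ℂ) * om d ^ a.val =
      ∑ b, (r b : ℂ) * φ (a - b) * om d ^ a.val := by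
    intro a
    rw [conv, Rat.cast_sum, Finset.sum_mul]
    simp
  rw [Finset.sum_congr rfl fun a _ => h1 a, Finset.sum_comm]
  refine Finset.sum_congr rfl fun b _ => ?_
  rw [Ev_apply, Finset.mul_sum]
  rw [← Equiv.sum_comp (Equiv.addRight b)]
  refine Finset.sum_congr rfl fun c _ => ?_
  simp only [Equiv.coe_addRight, add_sub_cancel_right]
  rw [om_pow_add hd]
  ring

/-- The polynomial of `r`. -/
noncomputable def pol (r : ZMod N → ℚ) : ℚ[X] := ∑ b, C (r b) * X ^ b.val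

theorem aeval_pol (d : ℕ) (r : ZMod N → ℚ) : aeval (om d) (pol r) = Ev d r := by
  simp [pol, Ev_apply, map_sum]

theorem cyc_dvd_pol {d : ℕ} (hd : d ≠ 0) {r : ZMod N → ℚ} :
    cyclotomic d ℚ ∣ pol r ↔ Ev d r = 0 := by
  have h := om_prim hd
  rw [Polynomial.cyclotomic_eq_minpoly_rat h (Nat.pos_of_ne_zero hd), ← aeval_pol]
  exact minpoly.dvd_iff

/-- The cyclic shift. -/
def sh (N : ℕ) [NeZero N] : Module.End ℚ (ZMod N → ℚ) where
  toFun φ a := φ (a - 1)
  map_add' _ _ := rfl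
  map_smul' _ _ := rfl

theorem sh_pow (k : ℕ) (φ : ZMod N → ℚ) (a : ZMod N) : ((sh N) ^ k) φ a = φ (a - k) := by
  induction k generalizing φ with
  | zero => simp
  | succ k ih =>
    rw [pow_succ, Module.End.mul_apply, ih]
    change φ (a - k - 1) = _
    congr 1
    push_cast
    ring

theorem aeval_sh_pol (r φ : ZMod N → ℚ) : aeval (sh N) (pol r) φ = conv r φ := by
  ext a
  simp only [pol, map_sum, map_mul, aeval_C, map_pow, aeval_X, LinearMap.sum_apply,
    Module.End.mul_apply, Module.algebraMap_end_apply, Finset.sum_apply, Pi.smul_apply,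
    smul_eq_mul, conv, sh_pow, ZMod.natCast_val, ZMod.cast_id', id]

theorem aeval_sh_X_pow : aeval (sh N) (X ^ N - 1 : ℚ[X]) = 0 := by
  refine LinearMap.ext fun φ => ?_
  ext a
  simp [sh_pow]

/-- `x` with prescribed zeros: the ideal of the set `D` of divisors. -/
noncomputable def J (D : Finset ℕ) : Submodule ℚ (ZMod N → ℚ) where
  carrier := {x | ∀ d ∈ N.divisors, d ∉ D → Ev d x = 0}
  add_mem' hx hy d hd hD := by rw [map_add, hx d hd hD, hy d hd hD, add_zero]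
  zero_mem' d _ _ := map_zero _
  smul_mem' q x hx d hd hD := by rw [map_smul, hx d hd hD, smul_zero]

theorem mem_J {D : Finset ℕ} {x : ZMod N → ℚ} :
    x ∈ J D ↔ ∀ d ∈ N.divisors, d ∉ D → Ev d x = 0 := Iff.rfl

theorem conv_mem_J {D : Finset ℕ} {r : ZMod N → ℚ} (hr : r ∈ J D) (φ : ZMod N → ℚ) :
    conv r φ ∈ J D := by
  intro d hd hD
  rw [Ev_conv (Nat.dvd_of_mem_divisors hd), hr d hd hD, zero_mul]

/-- An element with the right support generates the ideal. -/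
theorem exists_conv {D : Finset ℕ} (hD : D ⊆ N.divisors) {r x : ZMod N → ℚ}
    (hr : ∀ d ∈ D, Ev d r ≠ 0) (hx : x ∈ J D) : ∃ φ, x = conv r φ := by
  classical
  have hpos : ∀ d ∈ N.divisors, d ≠ 0 := fun d hd h => by
    rw [h] at hd
    simp at hd
  have h1 : IsCoprime (∏ d ∈ D, cyclotomic d ℚ) (pol r) := by
    refine IsCoprime.prod_left fun d hd => ?_
    have hd0 := hpos d (hD hd)
    rw [(cyclotomic.irreducible_rat (Nat.pos_of_ne_zero hd0)).coprime_iff_not_dvd,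
      cyc_dvd_pol hd0]
    exact hr d hd
  have h2 : ∏ d ∈ N.divisors \ D, cyclotomic d ℚ ∣ pol x := by
    refine Finset.prod_dvd_of_coprime ?_ ?_
    · intro a _ b _ hab
      exact cyclotomic.isCoprime_rat hab
    · intro d hd
      rw [mem_sdiff] at hd
      exact (cyc_dvd_pol (hpos d hd.1)).2 (hx d hd.1 hd.2)
  obtain ⟨u, v, huv⟩ := h1
  obtain ⟨w, hw⟩ := h2
  have h3 : (∏ d ∈ N.divisors \ D, cyclotomic d ℚ) * ∏ d ∈ D, cyclotomic d ℚ = X ^ N - 1 := by
    rw [Finset.prod_sdiff hD]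
    exact prod_cyclotomic_eq_X_pow_sub_one (Nat.pos_of_ne_zero (NeZero.ne N)) ℚ
  have h4 : pol x = (X ^ N - 1) * (w * u) + pol r * (pol x * v) := by
    rw [← h3]
    calc pol x = pol x * (u * ∏ d ∈ D, cyclotomic d ℚ + v * pol r) := by rw [huv, mul_one]
      _ = (∏ d ∈ N.divisors \ D, cyclotomic d ℚ) * w * (u * ∏ d ∈ D, cyclotomic d ℚ) +
          pol r * (pol x * v) := by rw [mul_add, ← hw]; ring
      _ = _ := by ring
  refine ⟨aeval (sh N) (pol x * v) (Pi.single 0 1), ?_⟩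
  have h5 : conv x (Pi.single 0 1) = x := by
    ext a
    simp only [conv, Pi.single_apply, mul_ite, mul_one, mul_zero]
    rw [Finset.sum_eq_single a]
    · simp
    · intro b _ hb
      rw [if_neg]
      intro h
      exact hb (sub_eq_zero.1 h).symm
    · intro h
      exact absurd (mem_univ a) h
  rw [← aeval_sh_pol r, ← Module.End.mul_apply, ← map_mul]
  conv_lhs => rw [← h5, ← aeval_sh_pol, h4]
  rw [map_add, map_mul, aeval_sh_X_pow, zero_mul, zero_add]

open Classical in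
/-- The support of a space of vectors. -/
noncomputable def Dv (S : Submodule ℚ (ZMod N → ℚ)) : Finset ℕ :=
  N.divisors.filter fun d => ∃ r ∈ S, Ev d r ≠ 0

theorem mem_Dv {S : Submodule ℚ (ZMod N → ℚ)} {d : ℕ} :
    d ∈ Dv S ↔ d ∈ N.divisors ∧ ∃ r ∈ S, Ev d r ≠ 0 := by
  classical
  simp [Dv]

theorem Dv_mono {S T : Submodule ℚ (ZMod N → ℚ)} (h : S ≤ T) : Dv S ⊆ Dv T := by
  intro d hd
  rw [mem_Dv] at hd ⊢
  obtain ⟨h1, r, hr, h2⟩ := hd
  exact ⟨h1, r, h hr, h2⟩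

theorem Dv_subset (S : Submodule ℚ (ZMod N → ℚ)) : Dv S ⊆ N.divisors := fun _ hd => (mem_Dv.1 hd).1

theorem le_J_Dv (S : Submodule ℚ (ZMod N → ℚ)) : S ≤ J (Dv S) := by
  intro r hr d hd hD
  by_contra h
  exact hD (mem_Dv.2 ⟨hd, r, hr, h⟩)

/-- A generic element. -/
theorem exists_generic (S : Submodule ℚ (ZMod N → ℚ)) : ∃ r ∈ S, ∀ d ∈ Dv S, Ev d r ≠ 0 := by
  classical
  let s : Finset (Subspace ℚ S) :=
    (Dv S).image fun d => LinearMap.ker ((Ev (N := N) d).domRestrict S)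
  have hs : ⊤ ∉ s := by
    intro h
    rw [mem_image] at h
    obtain ⟨d, hd, h⟩ := h
    obtain ⟨-, r, hr, hne⟩ := mem_Dv.1 hd
    have : (⟨r, hr⟩ : S) ∈ LinearMap.ker ((Ev (N := N) d).domRestrict S) := by
      rw [h]; exact mem_top
    rw [LinearMap.mem_ker] at this
    exact hne this
  have h1 := Subspace.biUnion_ne_univ_of_top_notMem hs
  obtain ⟨⟨r, hr⟩, h2⟩ := (Set.ne_univ_iff_exists_notMem _).1 h1
  refine ⟨r, hr, fun d hd h => h2 ?_⟩
  rw [Set.mem_iUnion₂]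
  exact ⟨_, mem_image_of_mem _ hd, LinearMap.mem_ker.2 h⟩

end H992

end Vale.Agent.P344
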