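import Vale.Agent.P344.H992.Classes
import Vale.Agent.P344.H880.KDft

/-!
# Additions needed by a linear circuit for `F_n`
-/

set_option linter.unusedSectionVars false

namespace Vale.Agent.P344

open Finset

namespace H992

theorem isPrim {n : ℕ} (hn : n ≠ 0) :
    IsPrimitiveRoot (Complex.exp (2 * Real.pi * Complex.I / n)) n :=
  Complex.isPrimitiveRoot_exp n hn

theorem dft_ne {n : ℕ} (j k : Fin n) : dftMat n j k ≠ 0 := pow_ne_zero _ (Complex.exp_ne_zero _)

theorem dft_col {n : ℕ} {i j : Fin n} (hij : i ≠ j) {a b : ℂ} (ha : a ≠ 0) (hb : b ≠ 0) :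
    ∃ k, b * dftMat n k i ≠ a * dftMat n k j := by
  have hn : 1 < n := by
    rcases i with ⟨i, hi⟩
    rcases j with ⟨j, hj⟩
    have : i ≠ j := fun h => hij (Fin.ext h)
    omega
  by_cases hab : b = a
  · subst hab
    refine ⟨⟨1, hn⟩, fun h => hij ?_⟩
    have h1 := mul_left_cancel₀ hb h
    simp only [dftMat, one_mul] at h1
    exact Fin.ext ((isPrim (by omega)).pow_inj i.2 j.2 h1)
  · refine ⟨⟨0, by omega⟩, ?_⟩
    simpa [dftMat] using hab

/-- Outputs are pairwise non-proportional on every set of more than `n / p` inputs. -/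
theorem dft_row {n : ℕ} (hn : 2 ≤ n) {S : Finset (Fin n)} (hS : n / n.minFac < S.card)
    {k k' : Fin n} (hk : k ≠ k') (t : ℂ) : ∃ i ∈ S, dftMat n k i ≠ t * dftMat n k' i := by
  by_contra hcon
  push Not at hcon
  have hprim := isPrim (n := n) (by omega)
  set ζ := Complex.exp (2 * Real.pi * Complex.I / n) with hζ
  -- the divisor
  set X : ℕ := ((k : ℤ) - (k' : ℤ)).natAbs with hX
  have hX0 : X ≠ 0 := by
    rw [hX, Int.natAbs_ne_zero]
    intro h
    apply hk
    ext
    omega
  have hXn : X < n := by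
    have := k.2
    have := k'.2
    omega
  set d := Nat.gcd X n with hd
  have hdpos : 0 < d := Nat.gcd_pos_of_pos_right _ (by omega)
  obtain ⟨x, hx⟩ : d ∣ X := Nat.gcd_dvd_left _ _
  obtain ⟨m, hm⟩ : d ∣ n := Nat.gcd_dvd_right _ _
  have hcop : Nat.Coprime x m := by
    have h1 : Nat.gcd (d * x) (d * m) = d := by rw [← hx, ← hm]
    rw [Nat.gcd_mul_left] at h1
    exact Nat.eq_of_mul_eq_mul_left hdpos (by rw [h1, mul_one])
  have hm2 : 2 ≤ m := by
    by_contra hlt
    have : m = 0 ∨ m = 1 := by omega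
    rcases this with h | h
    · rw [h] at hm; omega
    · rw [h, mul_one] at hm
      have h1 : n ∣ X := by rw [hm]; exact Nat.gcd_dvd_left X n
      have := Nat.le_of_dvd (Nat.pos_of_ne_zero hX0) h1
      omega
  have hmn : m ∣ n := ⟨d, by rw [hm]; ring⟩
  have hcongr : ∀ i ∈ S, ∀ j ∈ S, (i : ℕ) % m = (j : ℕ) % m := by
    intro i hi j hj
    have h1 := hcon i hi
    have h2 := hcon j hj
    simp only [dftMat] at h1 h2
    have h3 : ζ ^ ((k : ℕ) * i + k' * j) = ζ ^ ((k : ℕ) * j + k' * i) := by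
      rw [pow_add, pow_add, h1, h2]; ring
    have hζ0 : ζ ≠ 0 := Complex.exp_ne_zero _
    have h4 : ζ ^ ((((k : ℕ) * j + k' * i : ℕ) : ℤ) - (((k : ℕ) * i + k' * j : ℕ) : ℤ)) = 1 := by
      rw [zpow_sub₀ hζ0, zpow_natCast, zpow_natCast, h3]
      exact div_self (pow_ne_zero _ hζ0)
    have h5 := (hprim.zpow_eq_one_iff_dvd _).1 h4
    have h6 : (n : ℤ) ∣ ((k : ℤ) - k') * ((j : ℤ) - i) := by
      have e : (((k : ℕ) * j + k' * i : ℕ) : ℤ) - (((k : ℕ) * i + k' * j : ℕ) : ℤ) =
        ((k : ℤ) - k') * ((j : ℤ) - i) := by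
        push_cast; ring
      rwa [e] at h5
    have h7 : n ∣ X * ((j : ℤ) - i).natAbs := by
      rw [hX, ← Int.natAbs_mul]
      exact Int.natCast_dvd.1 h6
    have h8 : m ∣ ((j : ℤ) - i).natAbs := by
      have h9 : d * m ∣ d * (x * ((j : ℤ) - i).natAbs) := by
        rw [← hm, ← mul_assoc, ← hx]; exact h7
      exact (hcop.symm).dvd_of_dvd_mul_left ((Nat.mul_dvd_mul_iff_left hdpos).1 h9)
    have h10 : (m : ℤ) ∣ (j : ℤ) - i := Int.natCast_dvd.2 h8
    exact (Nat.modEq_iff_dvd.2 h10)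
  have hcard : S.card ≤ n / m := by
    have hmap : ∀ i ∈ S, (i : ℕ) / m ∈ range (n / m) := by
      intro i _
      rw [mem_range]
      exact Nat.div_lt_div_of_lt_of_dvd hmn i.2
    have hinj : Set.InjOn (fun i : Fin n => (i : ℕ) / m) (S : Set (Fin n)) := by
      intro i hi j hj hij
      have h1 := hcongr i hi j hj
      have h2 := Nat.div_add_mod (i : ℕ) m
      have h3 := Nat.div_add_mod (j : ℕ) m
      have hij' : (i : ℕ) / m = (j : ℕ) / m := hij
      apply Fin.ext
      rw [← h2, ← h3, hij', h1]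
    have := Finset.card_le_card_of_injOn (fun i : Fin n => (i : ℕ) / m) hmap hinj
    rwa [card_range] at this
  have hmf : n.minFac ≤ m := Nat.minFac_le_of_dvd hm2 hmn
  have h1 : n / m ≤ n / n.minFac := Nat.div_le_div_left hmf (Nat.minFac_pos n)
  omega

/-- **Additions.** Every linear circuit for `F_n`, `n ≥ 2`, has at least `3 n - n / p - 3`
additions and subtractions, `p` the least prime factor of `n`. -/
theorem adds_dft {n : ℕ} (hn : 2 ≤ n) (C : Circuit (Fin n) (Fin n)) (hC : C.Comp (dftMat n)) :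
    3 * n ≤ C.adds.card + n / n.minFac + 3 := by
  obtain ⟨f, hf, hA⟩ := hC
  have : Nonempty (Fin n) := ⟨⟨0, by omega⟩⟩
  have hp : 2 ≤ n.minFac := (Nat.minFac_prime (by omega)).two_le
  have hpn : n.minFac ≤ n := Nat.minFac_le (by omega)
  have h1 : 1 ≤ n / n.minFac := (Nat.one_le_div_iff (by omega)).2 hpn
  have h2 : n / n.minFac ≤ n / 2 := Nat.div_le_div_left hp (by omega)
  have h3 : n / 2 + 1 ≤ n := by omega
  have key := adds_bound (A := dftMat n) hf hA (fun k i => dft_ne k i)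
    (fun i j hij a b ha hb => dft_col hij ha hb) (s := n / n.minFac + 1) (by omega)
    (by rw [Fintype.card_fin]; omega)
    (fun S hS k k' hk t => dft_row hn (by omega) hk t)
  rw [Fintype.card_fin] at key
  omega

end H992

end Vale.Agent.P344
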