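import Vale.Agent.P344.H992.Reach
import Vale.Agent.P344.H880.KDft

/-!
# Irrational scalar gates: the rank of the outputs over the rationals
-/

set_option linter.unusedSectionVars false

namespace Vale.Agent.P344

open Finset Submodule Polynomial

namespace H992

theorem conj_root {Q : ℚ[X]} {d : ℕ} (hd : 0 < d) {μ μ' : ℂ} (h : IsPrimitiveRoot μ d)
    (h' : IsPrimitiveRoot μ' d) (h0 : aeval μ Q = 0) : aeval μ' Q = 0 := by
  have h1 : minpoly ℚ μ ∣ Q := minpoly.dvd ℚ μ h0
  rw [← Polynomial.cyclotomic_eq_minpoly_rat h hd, Polynomial.cyclotomic_eq_minpoly_rat h' hd]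
    at h1
  obtain ⟨R, rfl⟩ := h1
  rw [map_mul, minpoly.aeval, zero_mul]

/-- The rational combinations of the rows. -/
noncomputable def rows (n : ℕ) : (Fin n → ℚ) →ₗ[ℚ] (Fin n → ℂ) where
  toFun r j := ∑ k, (r k : ℂ) * dftMat n k j
  map_add' x y := by ext j; simp [add_mul, Finset.sum_add_distrib]
  map_smul' q x := by ext j; simp [Rat.smul_def, Finset.mul_sum, mul_assoc]

theorem rows_apply {n : ℕ} (r : Fin n → ℚ) (j : Fin n) :
    rows n r j = ∑ k, (r k : ℂ) * dftMat n k j := rfl

/-- Inversion formula. -/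
theorem rows_inv {n : ℕ} (r : Fin n → ℚ) (l : Fin n) :
    ∑ j, rows n r j * (starRingEnd ℂ) (dftMat n l j) = n * r l := by
  simp only [rows_apply, Finset.sum_mul]
  rw [Finset.sum_comm]
  have h1 : ∀ k, ∑ j, (r k : ℂ) * dftMat n k j * (starRingEnd ℂ) (dftMat n l j) =
      r k * ((n : ℂ) * if k = l then 1 else 0) := by
    intro k
    have h2 := congrFun (congrFun (dftMat_mul n) k) l
    rw [Matrix.mul_apply] at h2
    simp only [Matrix.conjTranspose_apply, Matrix.smul_apply, Matrix.one_apply, smul_eq_mul] at h2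
    simp only [mul_assoc]
    rw [← Finset.mul_sum]
    congr 1
  rw [Finset.sum_congr rfl fun k _ => h1 k]
  simp [mul_comm]

theorem rows_injective {n : ℕ} : Function.Injective (rows n) := by
  rw [← LinearMap.ker_eq_bot, LinearMap.ker_eq_bot']
  intro r hr
  ext l
  have h := rows_inv r l
  rw [hr] at h
  simp only [Pi.zero_apply, zero_mul, Finset.sum_const_zero] at h
  have hn : (n : ℂ) ≠ 0 := by
    have := l.2
    exact_mod_cast (show n ≠ 0 by omega)
  have := (mul_eq_zero.1 h.symm).resolve_left hn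
  exact_mod_cast this

/-- A rational combination of the rows is rational only if its coefficients depend on the gcd with
`n` only. -/
theorem rat_rows {n : ℕ} {r : Fin n → ℚ} (hr : rows n r ∈ rat (Fin n)) {k l : Fin n}
    (hkl : Nat.gcd n k = Nat.gcd n l) : r k = r l := by
  obtain ⟨s, hs⟩ := hr
  have hn : 0 < n := lt_of_le_of_lt (Nat.zero_le _) k.2
  have hn0 : (n : ℂ) ≠ 0 := by exact_mod_cast hn.ne'
  have hprim : IsPrimitiveRoot (Complex.exp (2 * Real.pi * Complex.I / n)) n :=
    Complex.isPrimitiveRoot_exp n hn.ne'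
  set ζ := Complex.exp (2 * Real.pi * Complex.I / n) with hζ
  have hord : ∀ m : Fin n, IsPrimitiveRoot ((starRingEnd ℂ) (ζ ^ (m : ℕ))) (n / Nat.gcd n m) := by
    intro m
    have h1 : orderOf (ζ ^ (m : ℕ)) = n / Nat.gcd n m := by
      have hfo : IsOfFinOrder ζ := by
        rw [isOfFinOrder_iff_pow_eq_one]
        exact ⟨n, hn, hprim.pow_eq_one⟩
      rw [IsOfFinOrder.orderOf_pow ζ _ hfo, ← hprim.eq_orderOf]
    rw [← h1]
    exact (IsPrimitiveRoot.orderOf (ζ ^ (m : ℕ))).map_of_injective (RingHom.injective _)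
  let P : ℚ[X] := ∑ j : Fin n, C (s j) * X ^ (j : ℕ)
  have hP : ∀ m : Fin n, aeval ((starRingEnd ℂ) (ζ ^ (m : ℕ))) P = n * r m := by
    intro m
    rw [← rows_inv r m]
    simp only [P, map_sum, map_mul, aeval_C, map_pow, aeval_X]
    refine Finset.sum_congr rfl fun j _ => ?_
    rw [← hs]
    simp only [dftMat, inc_apply, eq_ratCast, map_pow]
    rw [← pow_mul]
  have hd : 0 < n / Nat.gcd n k := Nat.div_pos (Nat.le_of_dvd hn (Nat.gcd_dvd_left _ _))
    (Nat.gcd_pos_of_pos_left _ hn)
  have h1 : aeval ((starRingEnd ℂ) (ζ ^ (k : ℕ))) (P - C (n * r k)) = 0 := by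
    rw [map_sub, hP, aeval_C]
    simp
  have h2 := conj_root hd (hord k) (by rw [hkl]; exact hord l) h1
  rw [map_sub, hP, aeval_C] at h2
  have h3 : (n : ℂ) * r l = n * r k := by
    have := sub_eq_zero.1 h2
    simpa using this
  have h4 := mul_left_cancel₀ hn0 h3
  exact_mod_cast h4.symm

theorem finrank_rat_rows {n : ℕ} (hn : 0 < n) :
    Module.finrank ℚ ((rat (Fin n)).comap (rows n)) ≤ n.divisors.card := by
  let ev : ((rat (Fin n)).comap (rows n)) →ₗ[ℚ] (n.divisors → ℚ) :=
    { toFun := fun r d => r.1 ⟨d.1 % n, Nat.mod_lt _ hn⟩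
      map_add' := fun x y => by ext d; simp
      map_smul' := fun q x => by ext d; simp }
  have hinj : Function.Injective ev := by
    rw [← LinearMap.ker_eq_bot, LinearMap.ker_eq_bot']
    rintro ⟨r, hr⟩ h0
    rw [mem_comap] at hr
    ext k
    have hd : Nat.gcd n k ∈ n.divisors := Nat.mem_divisors.2 ⟨Nat.gcd_dvd_left _ _, hn.ne'⟩
    have h1 := congrFun h0 ⟨_, hd⟩
    have h2 : r k = r ⟨Nat.gcd n k % n, Nat.mod_lt _ hn⟩ := by
      refine rat_rows hr ?_
      calc Nat.gcd n k = Nat.gcd n (Nat.gcd n k) :=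
            (Nat.gcd_eq_right (Nat.gcd_dvd_left _ _)).symm
        _ = Nat.gcd (Nat.gcd n k % n) n := Nat.gcd_rec _ _
        _ = Nat.gcd n (Nat.gcd n k % n) := Nat.gcd_comm _ _
    simp only
    rw [h2]
    exact h1
  have := LinearMap.finrank_le_finrank_of_injective hinj
  simpa using this

/-- All rows of `F_n` need `n - d(n)` irrational scalar multiplications. -/
theorem rows_bound {n : ℕ} (hn : 0 < n) {m : ℕ} {U : Submodule ℚ (Fin n → ℂ)} (h : Reach m U)
    (hU : ∀ k, (fun j => dftMat n k j) ∈ U) : n ≤ m + n.divisors.card := by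
  have hfin := h.finite
  have h1 : LinearMap.range (rows n) ≤ U := by
    rintro _ ⟨r, rfl⟩
    have : rows n r = ∑ k, r k • (fun j => dftMat n k j) := by
      ext j
      simp [rows_apply, Rat.smul_def]
    rw [this]
    exact U.sum_mem fun k _ => U.smul_mem _ (hU k)
  have h2 : LinearMap.range (rows n) ⊔ rat (Fin n) ≤ U := sup_le h1 h.rat_le
  have hr : Module.finrank ℚ (LinearMap.range (rows n)) = n := by
    rw [LinearMap.finrank_range_of_inj rows_injective]
    simp
  have hi : Module.finrank ℚ (rat (Fin n)) = n := by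
    rw [rat, LinearMap.finrank_range_of_inj]
    · simp
    · intro x y hxy
      ext a
      have := congrFun hxy a
      simpa using this
  have h3 := Submodule.finrank_mono h2
  have : FiniteDimensional ℚ (rat (Fin n)) :=
    inferInstanceAs (FiniteDimensional ℚ (LinearMap.range inc))
  have h4 := Submodule.finrank_sup_add_finrank_inf_eq (LinearMap.range (rows n)) (rat (Fin n))
  have h5 : Module.finrank ℚ (LinearMap.range (rows n) ⊓ rat (Fin n) : Submodule ℚ _) ≤
      n.divisors.card := by
    refine le_trans (le_of_eq ?_) (finrank_rat_rows hn)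
    rw [← Submodule.map_comap_eq]
    exact (LinearEquiv.finrank_eq (Submodule.equivMapOfInjective (rows n) rows_injective _)).symm
  have h6 := h.finrank_le
  rw [Fintype.card_fin] at h6
  omega

end H992

end Vale.Agent.P344
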