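import Vale.Agent.P344.H992.Core
import Vale.Agent.P344.H992.RowRank
import Vale.Agent.P344.H992.DftAdd

/-!
# Irrational scalar gates for prime `n`
-/

set_option linter.unusedSectionVars false

namespace Vale.Agent.P344

open Finset Submodule Polynomial

namespace H992

section prime

variable {p N : ℕ} [hp : Fact p.Prime] [NeZero N] (e : Multiplicative (ZMod N) ≃* (ZMod p)ˣ)

/-- the unit of `ZMod p` attached to `a` -/
def un (a : ZMod N) : (ZMod p)ˣ := e (Multiplicative.ofAdd a)

theorem un_add (a b : ZMod N) : un e (a + b) = un e a * un e b := by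
  simp [un, ofAdd_add]

theorem un_inj : Function.Injective (un e) := by
  intro a b h
  exact Multiplicative.ofAdd.injective (e.injective h)

theorem un_val_inj : Function.Injective fun a : ZMod N => ((un e a : (ZMod p)ˣ) : ZMod p).val := by
  intro a b h
  exact un_inj e (Units.ext (ZMod.val_injective p h))

theorem un_val_pos (a : ZMod N) : 0 < ((un e a : (ZMod p)ˣ) : ZMod p).val := by
  rw [Nat.pos_iff_ne_zero, Ne, ZMod.val_eq_zero]
  exact (un e a).ne_zero

/-- The entries of the cyclic part of `F_p`. -/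
noncomputable def th (a : ZMod N) : ℂ :=
  Complex.exp (2 * Real.pi * Complex.I / p) ^ ((un e a : (ZMod p)ˣ) : ZMod p).val

theorem th_li : LinearIndependent ℚ (th e) := by
  have hp0 : 0 < p := hp.out.pos
  have hζ := Complex.isPrimitiveRoot_exp p hp0.ne'
  have hdeg : (minpoly ℚ (Complex.exp (2 * Real.pi * Complex.I / p))).natDegree = p - 1 := by
    rw [← cyclotomic_eq_minpoly_rat hζ hp0, natDegree_cyclotomic, Nat.totient_prime hp.out]
  have h1 := linearIndependent_pow (K := ℚ) (Complex.exp (2 * Real.pi * Complex.I / p))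
  have hne : Complex.exp (2 * Real.pi * Complex.I / p) ≠ 0 := Complex.exp_ne_zero _
  have h2 := h1.map' (LinearMap.mulLeft ℚ (Complex.exp (2 * Real.pi * Complex.I / p)))
    (LinearMap.ker_eq_bot_of_injective fun x y h => mul_left_cancel₀ hne h)
  have h3 := h2.comp (fun a : ZMod N => ⟨((un e a : (ZMod p)ˣ) : ZMod p).val - 1, by
      rw [hdeg]
      have h4 := ZMod.val_lt ((un e a : (ZMod p)ˣ) : ZMod p)
      have h5 := un_val_pos e a
      omega⟩) (by
    intro a b h
    have h4 := un_val_pos e a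
    have h5 := un_val_pos e b
    simp only [Fin.mk.injEq] at h
    exact un_val_inj e (by simp only; omega))
  have h6 : th e = (⇑(LinearMap.mulLeft ℚ (Complex.exp (2 * Real.pi * Complex.I / p))) ∘
      fun i : Fin (minpoly ℚ (Complex.exp (2 * Real.pi * Complex.I / p))).natDegree =>
        Complex.exp (2 * Real.pi * Complex.I / p) ^ (i : ℕ)) ∘
      (fun a : ZMod N => ⟨((un e a : (ZMod p)ˣ) : ZMod p).val - 1, by
      rw [hdeg]
      have h4 := ZMod.val_lt ((un e a : (ZMod p)ˣ) : ZMod p)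
      have h5 := un_val_pos e a
      omega⟩) := by
    funext a
    simp only [Function.comp_apply, LinearMap.mulLeft_apply, th]
    rw [← pow_succ']
    congr 1
    have h5 := un_val_pos e a
    omega
  rw [h6]
  exact h3

theorem sum_pow_val : ∑ x : ZMod p, Complex.exp (2 * Real.pi * Complex.I / p) ^ x.val = 0 := by
  have hζ := Complex.isPrimitiveRoot_exp p hp.out.ne_zero
  rw [← hζ.geom_sum_eq_zero hp.out.one_lt]
  refine Finset.sum_nbij ZMod.val (fun x _ => mem_range.2 (ZMod.val_lt x))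
    (fun x _ y _ h => ZMod.val_injective p h) (fun i hi => ?_) (fun _ _ => rfl)
  rw [mem_coe, mem_range] at hi
  exact ⟨(i : ZMod p), by simp, ZMod.val_cast_of_lt hi⟩

theorem th_sum : ∑ a, th e a = -1 := by
  have h1 : ∑ a, th e a = ∑ u : (ZMod p)ˣ,
      Complex.exp (2 * Real.pi * Complex.I / p) ^ ((u : (ZMod p)ˣ) : ZMod p).val := by
    refine Fintype.sum_equiv (Multiplicative.ofAdd.trans e.toEquiv) _ _ fun a => rfl
  have h2 : ∑ u : (ZMod p)ˣ,
      Complex.exp (2 * Real.pi * Complex.I / p) ^ ((u : (ZMod p)ˣ) : ZMod p).val =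
      ∑ x ∈ univ.erase (0 : ZMod p), Complex.exp (2 * Real.pi * Complex.I / p) ^ x.val := by
    refine Finset.sum_bij (fun u _ => (u : ZMod p)) (fun u _ => ?_) (fun u _ v _ h => Units.ext h)
      (fun x hx => ?_) (fun _ _ => rfl)
    · exact mem_erase.2 ⟨u.ne_zero, mem_univ _⟩
    · exact ⟨Units.mk0 x (mem_erase.1 hx).1, mem_univ _, rfl⟩
  rw [h1, h2]
  have h3 := sum_pow_val (p := p)
  rw [← Finset.add_sum_erase _ _ (mem_univ (0 : ZMod p))] at h3
  simp only [ZMod.val_zero, pow_zero] at h3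
  linear_combination h3

/-- Restriction to the units. -/
noncomputable def res : (Fin p → ℂ) →ₗ[ℂ] (ZMod N → ℂ) where
  toFun v a := v ⟨((un e a : (ZMod p)ˣ) : ZMod p).val, ZMod.val_lt _⟩
  map_add' _ _ := rfl
  map_smul' _ _ := rfl

theorem res_apply (v : Fin p → ℂ) (a : ZMod N) :
    res e v a = v ⟨((un e a : (ZMod p)ˣ) : ZMod p).val, ZMod.val_lt _⟩ := rfl

theorem res_single (i : Fin p) : res e (Pi.single i 1) ∈ rat (ZMod N) := by
  refine ⟨fun a => if (⟨((un e a : (ZMod p)ˣ) : ZMod p).val, ZMod.val_lt _⟩ : Fin p) = i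
    then 1 else 0, ?_⟩
  ext a
  rw [inc_apply, res_apply, Pi.single_apply]
  split_ifs <;> simp

theorem res_row (b : ZMod N) :
    res e (fun j => dftMat p ⟨((un e (-b) : (ZMod p)ˣ) : ZMod p).val, ZMod.val_lt _⟩ j) =
      fun a => th e (a - b) := by
  ext a
  rw [res_apply, th]
  simp only [dftMat]
  have h1 : Complex.exp (2 * Real.pi * Complex.I / p) ^ p = 1 :=
    (Complex.isPrimitiveRoot_exp p hp.out.ne_zero).pow_eq_one
  rw [sub_eq_neg_add, un_add, Units.val_mul, ZMod.val_mul, ← pow_eq_pow_mod _ h1]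

end prime

/-- **Irrational scalar gates, prime `n`.** -/
theorem scal_prime {p : ℕ} (hp : p.Prime) (C : Circuit (Fin p) (Fin p)) (hC : C.Comp (dftMat p)) :
    2 * (p - 1) ≤ (scal C).card + 1 + 2 * (p - 1).divisors.card := by
  have : Fact p.Prime := ⟨hp⟩
  have hN : Nat.card (ZMod p)ˣ = p - 1 := by
    rw [Nat.card_eq_fintype_card, ZMod.card_units_eq_totient, Nat.totient_prime hp]
  have : NeZero (Nat.card (ZMod p)ˣ) := ⟨Nat.card_pos.ne'⟩
  obtain ⟨f, hf, hA⟩ := hC
  let e := zmodCyclicMulEquiv (G := (ZMod p)ˣ) inferInstance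
  obtain ⟨U, hU, hUm⟩ := exists_reach hf (res e) (res_single e)
  have h := cyc_bound (th_li e) (th_sum e) hU (fun b => by
    rw [← res_row]
    have h1 := hUm (C.out ⟨((un e (-b) : (ZMod p)ˣ) : ZMod p).val, ZMod.val_lt _⟩)
    have h2 : C.cell f (C.out ⟨((un e (-b) : (ZMod p)ˣ) : ZMod p).val, ZMod.val_lt _⟩) =
        fun j => dftMat p ⟨((un e (-b) : (ZMod p)ˣ) : ZMod p).val, ZMod.val_lt _⟩ j :=
      funext fun k => hA _ k
    rwa [h2] at h1)
  rw [hN] at h
  exact h

/-- **Irrational scalar gates, all `n`.** -/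
theorem scal_all {n : ℕ} (hn : 0 < n) (C : Circuit (Fin n) (Fin n)) (hC : C.Comp (dftMat n)) :
    n ≤ (scal C).card + n.divisors.card := by
  obtain ⟨f, hf, hA⟩ := hC
  obtain ⟨U, hU, hUm⟩ := exists_reach hf (LinearMap.id : (Fin n → ℂ) →ₗ[ℂ] (Fin n → ℂ)) (by
    intro i
    refine ⟨Pi.single i 1, ?_⟩
    ext a
    rw [inc_apply, LinearMap.id_apply, Pi.single_apply, Pi.single_apply]
    split_ifs <;> simp)
  refine rows_bound hn hU fun k => ?_
  have h1 := hUm (C.out k)
  have h2 : C.cell f (C.out k) = fun j => dftMat n k j := funext fun j => hA _ j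
  rwa [LinearMap.id_apply, h2] at h1

end H992

end Vale.Agent.P344
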