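import Vale.Agent.P344.H992.Alive

/-!
# Irrational scalar gates of a linear circuit

Additions and rational multiples are free; every multiplication by an irrational scalar counts.
-/

set_option linter.unusedSectionVars false

namespace Vale.Agent.P344

open Finset Submodule

namespace H992

variable {ν : Type} [Fintype ν]

/-- A rational vector as a complex vector. -/
noncomputable def inc : (ν → ℚ) →ₗ[ℚ] (ν → ℂ) where
  toFun ρ a := (ρ a : ℂ)
  map_add' x y := by ext a; simp
  map_smul' q x := by ext a; simp [Rat.smul_def]

@[simp] theorem inc_apply (ρ : ν → ℚ) (a : ν) : inc ρ a = (ρ a : ℂ) := rfl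

/-- The rational vectors. -/
noncomputable def rat (ν : Type) [Fintype ν] : Submodule ℚ (ν → ℂ) := LinearMap.range (inc (ν := ν))

/-- `Reach m U`: the rational space `U` of vectors is generated from the rational vectors by `m`
multiplications by irrational scalars. -/
inductive Reach : ℕ → Submodule ℚ (ν → ℂ) → Prop
  | zero : Reach 0 (rat ν)
  | step {m : ℕ} {U : Submodule ℚ (ν → ℂ)} {ℓ : ν → ℂ} {c : ℂ} :
      Reach m U → ℓ ∈ U → (c ∉ Set.range ((↑) : ℚ → ℂ)) → Reach (m + 1) (U ⊔ span ℚ {c • ℓ})

theorem Reach.rat_le {m : ℕ} {U : Submodule ℚ (ν → ℂ)} (h : Reach m U) : rat ν ≤ U := by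
  induction h with
  | zero => exact le_rfl
  | step _ _ _ ih => exact ih.trans le_sup_left

theorem finrank_sup_span_le {V : Type*} [AddCommGroup V] [Module ℚ V] (U : Submodule ℚ V)
    [FiniteDimensional ℚ U] (v : V) :
    Module.finrank ℚ (U ⊔ span ℚ {v} : Submodule ℚ V) ≤ Module.finrank ℚ U + 1 := by
  refine (Submodule.finrank_add_le_finrank_add_finrank _ _).trans ?_
  have := finrank_span_le_card (R := ℚ) ({v} : Set V)
  simp only [Set.toFinset_singleton, Finset.card_singleton] at this
  omega

theorem Reach.finite {m : ℕ} {U : Submodule ℚ (ν → ℂ)} (h : Reach m U) :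
    FiniteDimensional ℚ U := by
  induction h with
  | zero => exact inferInstanceAs (FiniteDimensional ℚ (LinearMap.range (inc (ν := ν))))
  | step _ _ _ ih =>
    have := ih
    infer_instance

theorem Reach.finrank_le {m : ℕ} {U : Submodule ℚ (ν → ℂ)} (h : Reach m U) :
    Module.finrank ℚ U ≤ Fintype.card ν + m := by
  induction h with
  | zero =>
    have h1 : Module.finrank ℚ (rat ν) ≤ Module.finrank ℚ (ν → ℚ) :=
      LinearMap.finrank_range_le (inc (ν := ν))
    simpa using h1
  | @step m U ℓ c h1 _ _ ih =>
    have := h1.finite
    have h2 := finrank_sup_span_le U (c • ℓ)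
    omega

variable {ι κ : Type} [Fintype ι] [DecidableEq ι] [Fintype κ]

open Classical in
/-- The scalar multiplications with irrational coefficient. -/
noncomputable def scal (C : Circuit ι κ) : Finset C.G :=
  univ.filter fun g => ∃ c p, C.gate g = .smul c p ∧ c ∉ Set.range ((↑) : ℚ → ℂ)

/-- The additions and the irrational scalar multiplications are different gates. -/
theorem adds_add_scal (C : Circuit ι κ) : C.adds.card + (scal C).card ≤ Fintype.card C.G := by
  classical
  rw [← card_union_of_disjoint]
  · exact card_le_univ _
  · rw [disjoint_left]
    intro g h1 h2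
    simp only [Circuit.adds, mem_filter, mem_univ, true_and] at h1
    simp only [scal, mem_filter, mem_univ, true_and] at h2
    obtain ⟨c, p, h, -⟩ := h2
    rw [h] at h1
    exact h1

/-- The values of a circuit, mapped by a linear map that sends the inputs to rational vectors. -/
theorem exists_reach {C : Circuit ι κ} {f : C.G → ι → ℂ} (hf : C.IsForms f)
    (E : (ι → ℂ) →ₗ[ℂ] (ν → ℂ)) (hE : ∀ i, E (Pi.single i 1) ∈ rat ν) :
    ∃ U, Reach (scal C).card U ∧ ∀ c, E (C.cell f c) ∈ U := by
  classical
  have key : ∀ k : ℕ, ∀ T : Finset C.G, T.card = k →
      (∀ g ∈ T, ∀ g', Sum.inr g' ∈ (C.gate g).args → g' ∈ T) →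
      ∃ U, Reach ((T.filter fun g => g ∈ scal C).card) U ∧ ∀ g ∈ T, E (f g) ∈ U := by
    intro k
    induction k with
    | zero =>
      intro T hT _
      rw [card_eq_zero] at hT
      subst hT
      exact ⟨rat ν, by simpa using Reach.zero, by simp⟩
    | succ k ih =>
      intro T hT hcl
      obtain ⟨g, hg, hmax⟩ := Finset.exists_max_image T C.depth (card_pos.1 (by omega))
      obtain ⟨U, hU, hUm⟩ := ih (T.erase g) (by rw [card_erase_of_mem hg]; omega) (by
        intro h hh h' hh'
        rw [mem_erase] at hh ⊢
        refine ⟨?_, hcl h hh.2 h' hh'⟩
        rintro rfl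
        have h1 := C.depth_lt h h' hh'
        have h2 := hmax h hh.2
        omega)
      have harg : ∀ c ∈ (C.gate g).args, E (C.cell f c) ∈ U := by
        intro c hc
        match c with
        | Sum.inl none =>
          have : C.cell f (Sum.inl none) = 0 := rfl
          rw [this, map_zero]
          exact U.zero_mem
        | Sum.inl (some i) => exact hU.rat_le (hE i)
        | Sum.inr g' =>
          refine hUm g' (mem_erase.2 ⟨?_, hcl g hg g' hc⟩)
          rintro rfl
          exact absurd (C.depth_lt g' g' hc) (lt_irrefl _)
      by_cases hadd : (C.gate g).IsAdd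
      · -- addition
        have hns : g ∉ scal C := by
          intro h
          simp only [scal, mem_filter, mem_univ, true_and] at h
          obtain ⟨c, p, h, -⟩ := h
          rw [h] at hadd
          exact hadd
        refine ⟨U, ?_, ?_⟩
        · have : (T.filter fun g => g ∈ scal C) = (T.erase g).filter fun g => g ∈ scal C := by
            ext h
            simp only [mem_filter, mem_erase]
            constructor
            · rintro ⟨h1, h2⟩
              exact ⟨⟨fun h3 => hns (h3 ▸ h2), h1⟩, h2⟩
            · rintro ⟨⟨-, h1⟩, h2⟩
              exact ⟨h1, h2⟩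
          rw [this]; exact hU
        · intro h hh
          by_cases hhg : h = g
          · subst hhg
            have hfh := hf h
            match hgate : C.gate h with
            | .add p q =>
              rw [hgate] at hfh harg
              rw [hfh]
              simp only [Gate.eval, map_add]
              exact U.add_mem (harg p (by simp [Gate.args])) (harg q (by simp [Gate.args]))
            | .sub p q =>
              rw [hgate] at hfh harg
              rw [hfh]
              simp only [Gate.eval, map_sub]
              exact U.sub_mem (harg p (by simp [Gate.args])) (harg q (by simp [Gate.args]))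
            | .smul c p =>
              rw [hgate] at hadd
              exact absurd hadd (by simp [Gate.IsAdd])
          · exact hUm h (mem_erase.2 ⟨hhg, hh⟩)
      · obtain ⟨p, c, hgate, hargs, hval⟩ := eval_smul hf hadd
        have hfg : f g = c • C.cell f p := by
          ext i; rw [hval]; rfl
        have hp := harg p (by simp [hargs])
        by_cases hc : c ∈ Set.range ((↑) : ℚ → ℂ)
        · have hns : g ∉ scal C := by
            intro h
            simp only [scal, mem_filter, mem_univ, true_and] at h
            obtain ⟨c', p', h, h'⟩ := h
            rw [hgate] at h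
            cases h
            exact h' hc
          refine ⟨U, ?_, ?_⟩
          · have : (T.filter fun g => g ∈ scal C) = (T.erase g).filter fun g => g ∈ scal C := by
              ext h
              simp only [mem_filter, mem_erase]
              constructor
              · rintro ⟨h1, h2⟩
                exact ⟨⟨fun h3 => hns (h3 ▸ h2), h1⟩, h2⟩
              · rintro ⟨⟨-, h1⟩, h2⟩
                exact ⟨h1, h2⟩
            rw [this]; exact hU
          · intro h hh
            by_cases hhg : h = g
            · subst hhg
              obtain ⟨q, rfl⟩ := hc
              rw [hfg, map_smul]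
              have : (q : ℂ) • E (C.cell f p) = q • E (C.cell f p) := by
                ext a; simp [Rat.smul_def]
              rw [this]
              exact U.smul_mem q hp
            · exact hUm h (mem_erase.2 ⟨hhg, hh⟩)
        · have hs : g ∈ scal C := by
            simp only [scal, mem_filter, mem_univ, true_and]
            exact ⟨c, p, hgate, hc⟩
          refine ⟨U ⊔ span ℚ {c • E (C.cell f p)}, ?_, ?_⟩
          · have : (T.filter fun g => g ∈ scal C) =
                insert g ((T.erase g).filter fun g => g ∈ scal C) := by
              ext h
              simp only [mem_filter, mem_erase, mem_insert]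
              constructor
              · rintro ⟨h1, h2⟩
                by_cases h3 : h = g
                · exact Or.inl h3
                · exact Or.inr ⟨⟨h3, h1⟩, h2⟩
              · rintro (rfl | ⟨⟨-, h1⟩, h2⟩)
                · exact ⟨hg, hs⟩
                · exact ⟨h1, h2⟩
            rw [this, card_insert_of_notMem (by simp)]
            exact hU.step hp hc
          · intro h hh
            by_cases hhg : h = g
            · subst hhg
              rw [hfg, map_smul]
              exact mem_sup_right (mem_span_singleton_self _)
            · exact mem_sup_left (hUm h (mem_erase.2 ⟨hhg, hh⟩))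
  obtain ⟨U, hU, hUm⟩ := key _ univ rfl (fun _ _ _ _ => mem_univ _)
  refine ⟨U, by simpa using hU, fun c => ?_⟩
  match c with
  | Sum.inl none =>
    have : C.cell f (Sum.inl none) = 0 := rfl
    rw [this, map_zero]
    exact U.zero_mem
  | Sum.inl (some i) => exact hU.rat_le (hE i)
  | Sum.inr g => exact hUm g (mem_univ _)

end H992

end Vale.Agent.P344
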