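import Vale.Agent.P344.H952.Defs

/-!
# Upper bounds on the number of gates: straight-line programs over a vector space
-/

set_option linter.unusedSectionVars false

namespace Vale.Agent.P344

open Finset

namespace H992

variable {V : Type} [AddCommGroup V] [Module ℂ V]

/-- From the values `S`, `s` gates produce the values `T`. -/
inductive St (S : Set V) : ℕ → Set V → Prop
  | zero : St S 0 S
  | add {s : ℕ} {T : Set V} {u v : V} : St S s T → u ∈ T → v ∈ T → St S (s + 1) (insert (u + v) T)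
  | sub {s : ℕ} {T : Set V} {u v : V} : St S s T → u ∈ T → v ∈ T → St S (s + 1) (insert (u - v) T)
  | smul {s : ℕ} {T : Set V} {u : V} (c : ℂ) : St S s T → u ∈ T → St S (s + 1) (insert (c • u) T)

theorem St.subset {S T : Set V} {s : ℕ} (h : St S s T) : S ⊆ T := by
  induction h with
  | zero => exact subset_rfl
  | add _ _ _ ih => exact ih.trans (Set.subset_insert _ _)
  | sub _ _ _ ih => exact ih.trans (Set.subset_insert _ _)
  | smul _ _ _ ih => exact ih.trans (Set.subset_insert _ _)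

/-- From a larger set of values one can do the same. -/
theorem St.simulate {S T S' : Set V} {s : ℕ} (h : St S s T) (hS : S ⊆ S') :
    ∃ T', St S' s T' ∧ T ⊆ T' := by
  induction h with
  | zero => exact ⟨S', .zero, hS⟩
  | add _ hu hv ih =>
    obtain ⟨T', h1, h2⟩ := ih
    exact ⟨_, h1.add (h2 hu) (h2 hv), Set.insert_subset_insert h2⟩
  | sub _ hu hv ih =>
    obtain ⟨T', h1, h2⟩ := ih
    exact ⟨_, h1.sub (h2 hu) (h2 hv), Set.insert_subset_insert h2⟩
  | smul c _ hu ih =>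
    obtain ⟨T', h1, h2⟩ := ih
    exact ⟨_, h1.smul c (h2 hu), Set.insert_subset_insert h2⟩

theorem St.trans {S T U : Set V} {s t : ℕ} (h : St S s T) (h' : St T t U) : St S (s + t) U := by
  induction h' with
  | zero => exact h
  | add _ hu hv ih => exact ih.add hu hv
  | sub _ hu hv ih => exact ih.sub hu hv
  | smul c _ hu ih => exact ih.smul c hu

/-- From the values `S`, at most `s` gates produce all of `W`. -/
def Cn (S : Set V) (s : ℕ) (W : Set V) : Prop := ∃ T t, t ≤ s ∧ St S t T ∧ W ⊆ T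

theorem Cn.of_subset {S W : Set V} (h : W ⊆ S) (s : ℕ) : Cn S s W := ⟨S, 0, Nat.zero_le _, .zero, h⟩

theorem Cn.mono {S S' W W' : Set V} {s s' : ℕ} (h : Cn S s W) (hS : S ⊆ S') (hs : s ≤ s')
    (hW : W' ⊆ W) : Cn S' s' W' := by
  obtain ⟨T, t, ht, h1, h2⟩ := h
  obtain ⟨T', h3, h4⟩ := h1.simulate hS
  exact ⟨T', t, ht.trans hs, h3, hW.trans (h2.trans h4)⟩

theorem Cn.trans {S W W' : Set V} {s t : ℕ} (h : Cn S s W) (h' : Cn (S ∪ W) t W') :
    Cn S (s + t) (W ∪ W') := by
  obtain ⟨T, a, ha, h1, h2⟩ := h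
  obtain ⟨T', b, hb, h3, h4⟩ := h'
  obtain ⟨T'', h5, h6⟩ := h3.simulate (Set.union_subset h1.subset h2)
  exact ⟨T'', a + b, Nat.add_le_add ha hb, h1.trans h5,
    Set.union_subset (h2.trans h5.subset) (h4.trans h6)⟩

theorem Cn.trans' {S W W' : Set V} {s t : ℕ} (h : Cn S s W) (h' : Cn (S ∪ W) t W') :
    Cn S (s + t) W' := (h.trans h').mono subset_rfl le_rfl Set.subset_union_right

theorem Cn.union {S W W' : Set V} {s t : ℕ} (h : Cn S s W) (h' : Cn S t W') :
    Cn S (s + t) (W ∪ W') := h.trans (h'.mono Set.subset_union_left le_rfl subset_rfl)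

theorem Cn.single_add {S : Set V} {u v : V} (hu : u ∈ S) (hv : v ∈ S) : Cn S 1 {u + v} :=
  ⟨_, 1, le_rfl, St.zero.add hu hv, by simp⟩

theorem Cn.single_sub {S : Set V} {u v : V} (hu : u ∈ S) (hv : v ∈ S) : Cn S 1 {u - v} :=
  ⟨_, 1, le_rfl, St.zero.sub hu hv, by simp⟩

theorem Cn.single_smul {S : Set V} {u : V} (c : ℂ) (hu : u ∈ S) : Cn S 1 {c • u} :=
  ⟨_, 1, le_rfl, St.zero.smul c hu, by simp⟩

theorem Cn.family {I : Type} (A : Finset I) {S : Set V} (f : I → ℕ) (W : I → Set V)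
    (h : ∀ i ∈ A, Cn S (f i) (W i)) : Cn S (∑ i ∈ A, f i) (⋃ i ∈ A, W i) := by
  classical
  induction A using Finset.induction_on with
  | empty => exact Cn.of_subset (by simp) _
  | insert i A hi ih =>
    rw [Finset.sum_insert hi]
    have h1 := (h i (mem_insert_self i A)).union (ih fun j hj => h j (mem_insert_of_mem hj))
    refine h1.mono subset_rfl le_rfl ?_
    intro x hx
    simp only [mem_insert, Set.mem_iUnion] at hx
    obtain ⟨j, rfl | hj, hx⟩ := hx
    · exact Or.inl hx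
    · exact Or.inr (by simp only [Set.mem_iUnion]; exact ⟨j, hj, hx⟩)

theorem Cn.fam {I : Type} [Fintype I] {S : Set V} {f : ℕ} {W : I → Set V}
    (h : ∀ i, Cn S f (W i)) : Cn S (Fintype.card I * f) (⋃ i, W i) := by
  have := Cn.family univ (fun _ => f) W (fun i _ => h i)
  simpa using this

/-- A family of single values. -/
theorem Cn.vals {I : Type} (A : Finset I) {S : Set V} (w : I → V)
    (h : ∀ i ∈ A, Cn S 1 {w i}) : Cn S A.card (⋃ i ∈ A, {w i}) := by
  have := Cn.family A (fun _ => 1) (fun i => {w i}) h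
  simpa using this

variable {ι κ : Type} [Fintype ι] [Fintype κ]

/-- `s` gates suffice for the matrix `A`. -/
def Cost (A : κ → ι → ℂ) (s : ℕ) : Prop :=
  ∀ (V : Type) [AddCommGroup V] [Module ℂ V] (S : Set V) (x : ι → V), Set.range x ⊆ S →
    Cn S s (Set.range fun k => ∑ j, A k j • x j)

/-- Up to a scaling of the inputs and outputs, `s` gates suffice. -/
def MCost (A : κ → ι → ℂ) (s : ℕ) : Prop :=
  ∃ (c : κ → ℂ) (e : ι → ℂ), (∀ k, c k ≠ 0) ∧ (∀ j, e j ≠ 0) ∧
    Cost (fun k j => c k * A k j * e j) s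

/-- For every scaling of the inputs, `s` gates suffice for some scaling of the outputs. -/
def TCost (A : κ → ι → ℂ) (s : ℕ) : Prop :=
  ∀ d : ι → ℂ, (∀ j, d j ≠ 0) → ∃ c : κ → ℂ, (∀ k, c k ≠ 0) ∧
    Cost (fun k j => c k * A k j * d j) s

theorem Cost.mono {A : κ → ι → ℂ} {s t : ℕ} (h : Cost A s) (hst : s ≤ t) : Cost A t :=
  fun V _ _ S x hx => (h V S x hx).mono subset_rfl hst subset_rfl

theorem TCost.mono {A : κ → ι → ℂ} {s t : ℕ} (h : TCost A s) (hst : s ≤ t) : TCost A t := by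
  intro d hd
  obtain ⟨c, hc, h1⟩ := h d hd
  exact ⟨c, hc, h1.mono hst⟩

theorem Cost.mcost {A : κ → ι → ℂ} {s : ℕ} (h : Cost A s) : MCost A s :=
  ⟨fun _ => 1, fun _ => 1, by simp, by simp, by simpa using h⟩

/-- Input scalings cost one gate each, except for one input. -/
theorem MCost.tcost [DecidableEq ι] {A : κ → ι → ℂ} {g : ℕ} (h : MCost A g) (j₀ : ι) :
    TCost A ((Fintype.card ι - 1) + g) := by
  obtain ⟨c, e, hc, he, hcost⟩ := h
  intro d hd
  refine ⟨fun k => c k * (e j₀ / d j₀), fun k => mul_ne_zero (hc k) (div_ne_zero (he _) (hd _)), ?_⟩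
  intro V _ _ S x hx
  -- scaled inputs
  let y : ι → V := fun j => ((d j / e j) * (e j₀ / d j₀)) • x j
  have hy0 : y j₀ = x j₀ := by
    simp only [y]
    rw [show d j₀ / e j₀ * (e j₀ / d j₀) = 1 by field_simp [he j₀, hd j₀], one_smul]
  have h1 : Cn S (Fintype.card ι - 1) (Set.range y) := by
    have h2 := Cn.vals (univ.erase j₀) y (fun j _ => Cn.single_smul (S := S) _ (hx ⟨j, rfl⟩))
    rw [card_erase_of_mem (mem_univ _), card_univ] at h2
    have h3 := h2.union (Cn.of_subset (S := S) (W := {x j₀}) (by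
      rintro _ rfl
      exact hx ⟨j₀, rfl⟩) 0)
    refine h3.mono subset_rfl le_rfl ?_
    rintro _ ⟨j, rfl⟩
    by_cases hj : j = j₀
    · subst hj
      right
      exact hy0
    · left
      simp only [Set.mem_iUnion, Set.mem_singleton_iff]
      exact ⟨j, mem_erase.2 ⟨hj, mem_univ _⟩, rfl⟩
  refine h1.trans' ((hcost V (S ∪ Set.range y) y Set.subset_union_right).mono subset_rfl le_rfl ?_)
  rintro _ ⟨k, rfl⟩
  refine ⟨k, ?_⟩
  refine Finset.sum_congr rfl fun j _ => ?_
  simp only [y, smul_smul]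
  congr 1
  have := he j
  field_simp

/-- Two-level scheme: `A = (outer)(inner)`.  `p = (p₁, p₂)` indexes the inputs, `q = (q₁, q₂)`
the outputs. -/
theorem Cost.comp' {α β γ δ : Type} [Fintype α] [Fintype β] [Fintype γ] [Fintype δ]
    {B : α → γ → β → ℂ} {C : γ → δ → α → ℂ} {s : α → ℕ} {t : ℕ}
    (hB : ∀ a, Cost (B a) (s a)) (hC : ∀ c, Cost (C c) t) :
    Cost (fun (q : δ × γ) (p : α × β) => C q.2 q.1 p.1 * B p.1 q.2 p.2)
      (∑ a, s a + Fintype.card γ * t) := by
  intro V _ _ S x hx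
  let z : α → γ → V := fun a c => ∑ b, B a c b • x (a, b)
  have h1 : Cn S (∑ a, s a) (⋃ a ∈ (univ : Finset α), Set.range (z a)) :=
    Cn.family univ s _ fun a _ =>
      hB a V S (fun b => x (a, b)) (by rintro _ ⟨b, rfl⟩; exact hx ⟨_, rfl⟩)
  simp only [mem_univ, Set.iUnion_true] at h1
  refine h1.trans' ?_
  have h2 : Cn (S ∪ ⋃ a, Set.range (z a)) (Fintype.card γ * t)
      (⋃ c, Set.range fun d => ∑ a, C c d a • z a c) :=
    Cn.fam fun c => hC c V _ (fun a => z a c) (by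
      rintro _ ⟨a, rfl⟩
      right
      simp only [Set.mem_iUnion]
      exact ⟨a, c, rfl⟩)
  refine h2.mono subset_rfl le_rfl ?_
  rintro _ ⟨⟨d, c⟩, rfl⟩
  simp only [Set.mem_iUnion]
  refine ⟨c, d, ?_⟩
  simp only [z, Finset.smul_sum, smul_smul]
  rw [Fintype.sum_prod_type]

theorem Cost.comp {α β γ δ : Type} [Fintype α] [Fintype β] [Fintype γ] [Fintype δ]
    {B : α → γ → β → ℂ} {C : γ → δ → α → ℂ} {s t : ℕ}
    (hB : ∀ a, Cost (B a) s) (hC : ∀ c, Cost (C c) t) :
    Cost (fun (q : δ × γ) (p : α × β) => C q.2 q.1 p.1 * B p.1 q.2 p.2)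
      (Fintype.card α * s + Fintype.card γ * t) := by
  have := Cost.comp' (s := fun _ => s) hB hC
  simpa using this

/-- Reindexing. -/
theorem Cost.reindex {ι' κ' : Type} [Fintype ι'] [Fintype κ'] {A : κ → ι → ℂ} {s : ℕ}
    (h : Cost A s) (e : ι' ≃ ι) (f : κ' → κ) : Cost (fun k j => A (f k) (e j)) s := by
  intro V _ _ S x hx
  refine (h V S (fun j => x (e.symm j)) (by rintro _ ⟨j, rfl⟩; exact hx ⟨_, rfl⟩)).mono
    subset_rfl le_rfl ?_
  rintro _ ⟨k, rfl⟩
  refine ⟨f k, ?_⟩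
  simp only
  rw [← Equiv.sum_comp e]
  simp

end H992

end Vale.Agent.P344
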