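import Vale.Agent.P344.H992.UpDefs

/-!
# Upper bounds for the discrete Fourier transform
-/

set_option linter.unusedSectionVars false

namespace Vale.Agent.P344

open Finset

namespace H992

/-- `e^{2πi/n}` -/
noncomputable def ze (n : ℕ) : ℂ := Complex.exp (2 * Real.pi * Complex.I / n)

/-- The discrete Fourier matrix. -/
noncomputable def F (n : ℕ) (k j : Fin n) : ℂ := ze n ^ ((k : ℕ) * (j : ℕ))

theorem ze_pow (n : ℕ) : ze n ^ n = 1 := by
  rcases Nat.eq_zero_or_pos n with rfl | hn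
  · simp
  · exact (Complex.isPrimitiveRoot_exp n hn.ne').pow_eq_one

theorem ze_ne (n : ℕ) : ze n ≠ 0 := Complex.exp_ne_zero _

theorem ze_mul_pow (r m : ℕ) (hr : 0 < r) (hm : 0 < m) : ze (r * m) ^ r = ze m := by
  rw [ze, ze, ← Complex.exp_nat_mul]
  congr 1
  have h1 : (r : ℂ) ≠ 0 := by exact_mod_cast hr.ne'
  have h2 : (m : ℂ) ≠ 0 := by exact_mod_cast hm.ne'
  push_cast
  field_simp

theorem ze_mul_pow' (r m : ℕ) (hr : 0 < r) (hm : 0 < m) : ze (r * m) ^ m = ze r := by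
  rw [mul_comm r m]
  exact ze_mul_pow m r hm hr

/-- input order `j = j₁ + r j₂` -/
def ein (r m : ℕ) : Fin r × Fin m ≃ Fin (r * m) :=
  (Equiv.prodComm _ _).trans (finProdFinEquiv.trans (finCongr (Nat.mul_comm m r)))

theorem ein_val (r m : ℕ) (p : Fin r × Fin m) : (ein r m p : ℕ) = p.1 + r * p.2 := rfl

/-- output order `k = k₂ + m k₁` -/
def eou (r m : ℕ) : Fin (r * m) → Fin r × Fin m := finProdFinEquiv.symm

theorem eou_val (r m : ℕ) (k : Fin (r * m)) :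
    ((eou r m k).2 : ℕ) + m * (eou r m k).1 = k := by
  have h : finProdFinEquiv (eou r m k) = k := Equiv.apply_symm_apply _ _
  have := congrArg Fin.val h
  simpa using this

/-- the factorisation behind the Cooley-Tukey scheme -/
theorem ct_entry {r m : ℕ} (hr : 0 < r) (hm : 0 < m) (k₁ k₂ j₁ j₂ : ℕ) :
    ze (r * m) ^ ((k₂ + m * k₁) * (j₁ + r * j₂)) =
      ze r ^ (k₁ * j₁) * ze (r * m) ^ (k₂ * j₁) * ze m ^ (k₂ * j₂) := by
  have e : (k₂ + m * k₁) * (j₁ + r * j₂) =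
      m * (k₁ * j₁) + k₂ * j₁ + r * (k₂ * j₂) + (r * m) * (k₁ * j₂) := by ring
  rw [e, pow_add, pow_add, pow_add, pow_mul _ m, pow_mul _ r, pow_mul _ (r * m), ze_pow, one_pow,
    mul_one, ze_mul_pow r m hr hm, ze_mul_pow' r m hr hm]

/-- **Cooley-Tukey** with free scalings. -/
theorem tcost_mul {r m s t : ℕ} (hr : 0 < r) (hm : 0 < m) (h : TCost (F r) s) (h' : TCost (F m) t) :
    TCost (F (r * m)) (r * t + m * s) := by
  intro d hd
  choose c₁ hc₁ hB using fun j₁ : Fin r => h' (fun j₂ => d (ein r m (j₁, j₂))) fun _ => hd _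
  choose c₂ hc₂ hC using fun k₂ : Fin m => h (fun j₁ => ze (r * m) ^ ((k₂ : ℕ) * j₁) / c₁ j₁ k₂)
    fun j₁ => div_ne_zero (pow_ne_zero _ (ze_ne _)) (hc₁ _ _)
  refine ⟨fun k => c₂ (eou r m k).2 (eou r m k).1, fun k => hc₂ _ _, ?_⟩
  have h1 := (Cost.comp hB hC).reindex (ein r m).symm (eou r m)
  rw [Fintype.card_fin, Fintype.card_fin] at h1
  convert h1 using 3 with k j
  obtain ⟨p, rfl⟩ := (ein r m).surjective j
  rw [Equiv.symm_apply_apply]
  have h2 : F (r * m) k (ein r m p) = F r (eou r m k).1 p.1 *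
      ze (r * m) ^ (((eou r m k).2 : ℕ) * p.1) * F m (eou r m k).2 p.2 := by
    rw [F, F, F, ein_val, ← eou_val r m k]
    exact ct_entry hr hm _ _ _ _
  rw [h2]
  have := hc₁ p.1 (eou r m k).2
  field_simp

theorem tcost_one : TCost (F 1) 0 := by
  intro d hd
  refine ⟨fun _ => (d 0)⁻¹, fun _ => inv_ne_zero (hd 0), ?_⟩
  intro V _ _ S x hx
  refine Cn.of_subset ?_ 0
  rintro _ ⟨k, rfl⟩
  have h0 : k = 0 := Subsingleton.elim _ _
  subst h0
  have : (∑ j, ((d 0)⁻¹ * F 1 0 j * d j) • x j) = x 0 := by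
    simp [F, hd 0]
  simp only [this]
  exact hx ⟨0, rfl⟩

theorem cost_one : Cost (F 1) 0 := by
  intro V _ _ S x hx
  refine Cn.of_subset ?_ 0
  rintro _ ⟨k, rfl⟩
  have h0 : k = 0 := Subsingleton.elim _ _
  subst h0
  have : (∑ j, (F 1 0 j) • x j) = x 0 := by
    simp [F]
  simp only [this]
  exact hx ⟨0, rfl⟩

/-- the butterfly with a twiddle factor -/
theorem cost_bf (w : ℂ) : Cost (fun c b : Fin 2 => w ^ (c : ℕ) * (-1 : ℂ) ^ ((c : ℕ) * b)) 3 := by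
  intro V _ _ S x hx
  have hx0 : x 0 ∈ S := hx ⟨0, rfl⟩
  have hx1 : x 1 ∈ S := hx ⟨1, rfl⟩
  have h1 := Cn.single_add hx0 hx1
  have h2 := Cn.single_sub hx0 hx1
  have h3 := h2.trans' (W' := {w • (x 0 - x 1)}) (Cn.single_smul w (Or.inr rfl))
  refine (h1.union h3).mono subset_rfl le_rfl ?_
  rintro _ ⟨k, rfl⟩
  fin_cases k
  · left; simp [Fin.sum_univ_two]
  · right; simp [Fin.sum_univ_two, sub_eq_add_neg]

theorem cost_bf1 : Cost (fun c b : Fin 2 => (1 : ℂ) ^ (c : ℕ) * (-1 : ℂ) ^ ((c : ℕ) * b)) 2 := by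
  intro V _ _ S x hx
  have hx0 : x 0 ∈ S := hx ⟨0, rfl⟩
  have hx1 : x 1 ∈ S := hx ⟨1, rfl⟩
  have h1 := Cn.single_add hx0 hx1
  have h2 := Cn.single_sub hx0 hx1
  refine (h1.union h2).mono subset_rfl le_rfl ?_
  rintro _ ⟨k, rfl⟩
  fin_cases k
  · left; simp [Fin.sum_univ_two]
  · right; simp [Fin.sum_univ_two, sub_eq_add_neg]

theorem ze_two : ze 2 = -1 := by
  rw [ze, show (2 * Real.pi * Complex.I / (2 : ℕ) : ℂ) = Real.pi * Complex.I by push_cast; ring]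
  exact Complex.exp_pi_mul_I

/-- Doubling, with no superfluous twiddle factor. -/
theorem cost_two {m t : ℕ} (hm : 0 < m) (h : Cost (F m) t) :
    Cost (F (m * 2)) (3 * m - 1 + 2 * t) := by
  have hB : ∀ j : Fin m, Cost (fun c b : Fin 2 => (ze (m * 2) ^ (j : ℕ)) ^ (c : ℕ) *
      (-1 : ℂ) ^ ((c : ℕ) * b)) (if (j : ℕ) = 0 then 2 else 3) := by
    intro j
    split_ifs with hj
    · rw [hj, pow_zero]
      exact cost_bf1
    · exact cost_bf _
  have h1 := (Cost.comp' (γ := Fin 2) hB (fun _ => h)).reindex (ein m 2).symm (eou m 2)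
  have h2 : ∑ j : Fin m, (if (j : ℕ) = 0 then 2 else 3) = 3 * m - 1 := by
    obtain ⟨m, rfl⟩ : ∃ m', m = m' + 1 := ⟨m - 1, by omega⟩
    rw [Fin.sum_univ_succ]
    simp
    ring_nf
    omega
  rw [h2, Fintype.card_fin] at h1
  convert h1 using 3 with k j
  obtain ⟨p, rfl⟩ := (ein m 2).surjective j
  rw [Equiv.symm_apply_apply, F, F, ein_val, ← eou_val m 2 k, ct_entry hm two_pos, ze_two,
    ← pow_mul, mul_comm (p.1 : ℕ) _, mul_assoc]

theorem cost_eight : Cost (F 8) 29 := by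
  have h1 := cost_two one_pos cost_one
  have h2 := cost_two (by norm_num) h1
  have h3 := cost_two (by norm_num) h2
  exact h3

/-- Tensor products. -/
theorem MCost.tensor {κ₁ κ₂ ι₁ ι₂ : Type} [Fintype κ₁] [Fintype κ₂] [Fintype ι₁] [Fintype ι₂]
    {A : κ₁ → ι₁ → ℂ} {B : κ₂ → ι₂ → ℂ} {s t : ℕ} (h : MCost A s) (h' : MCost B t) :
    MCost (fun (q : κ₁ × κ₂) (p : ι₁ × ι₂) => A q.1 p.1 * B q.2 p.2)
      (Fintype.card ι₁ * t + Fintype.card κ₂ * s) := by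
  obtain ⟨c, e, hc, he, hA⟩ := h
  obtain ⟨c', e', hc', he', hB⟩ := h'
  refine ⟨fun q => c q.1 * c' q.2, fun p => e p.1 * e' p.2, fun q => mul_ne_zero (hc _) (hc' _),
    fun p => mul_ne_zero (he _) (he' _), ?_⟩
  have h1 := Cost.comp (α := ι₁) (γ := κ₂) (fun _ => hB) (fun _ => hA)
  convert h1 using 3 with q p
  ring

theorem MCost.reindex {ι κ ι' κ' : Type} [Fintype ι] [Fintype κ] [Fintype ι'] [Fintype κ']
    {A : κ → ι → ℂ} {s : ℕ} (h : MCost A s) (e : ι' ≃ ι) (f : κ' → κ) :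
    MCost (fun k j => A (f k) (e j)) s := by
  obtain ⟨c, d, hc, hd, hA⟩ := h
  exact ⟨fun k => c (f k), fun j => d (e j), fun _ => hc _, fun _ => hd _, hA.reindex e f⟩

/-- input order for coprime factors -/
def crt (r q : ℕ) (hr : 0 < r) (hq : 0 < q) (p : Fin r × Fin q) : Fin (r * q) :=
  ⟨(q * p.1 + r * p.2) % (r * q), Nat.mod_lt _ (Nat.mul_pos hr hq)⟩

theorem crt_bij {r q : ℕ} (hr : 0 < r) (hq : 0 < q) (h : Nat.Coprime r q) :
    Function.Bijective (crt r q hr hq) := by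
  rw [Fintype.bijective_iff_injective_and_card]
  refine ⟨?_, by simp⟩
  rintro ⟨a, b⟩ ⟨a', b'⟩ hab
  have h1 : (q * a + r * b) ≡ (q * a' + r * b') [MOD (r * q)] := congrArg Fin.val hab
  have h2 : q * a ≡ q * a' [MOD r] := by
    have h3 := h1.of_mul_right q
    have h4 : q * (a : ℕ) + r * b ≡ q * a [MOD r] := by
      simp [Nat.ModEq]
    have h5 : q * (a' : ℕ) + r * b' ≡ q * a' [MOD r] := by
      simp [Nat.ModEq]
    exact h4.symm.trans (h3.trans h5)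
  have h3 : r * b ≡ r * b' [MOD q] := by
    have h3 := h1.of_mul_left r
    have h4 : q * (a : ℕ) + r * b ≡ r * b [MOD q] := by
      simp [Nat.ModEq]
    have h5 : q * (a' : ℕ) + r * b' ≡ r * b' [MOD q] := by
      simp [Nat.ModEq]
    exact h4.symm.trans (h3.trans h5)
  have h4 : (a : ℕ) ≡ a' [MOD r] := h2.cancel_left_of_coprime (by simpa using h)
  have h5 : (b : ℕ) ≡ b' [MOD q] := h3.cancel_left_of_coprime (by simpa using h.symm)
  have h6 : (a : ℕ) = a' := h4.eq_of_lt_of_lt a.2 a'.2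
  have h7 : (b : ℕ) = b' := h5.eq_of_lt_of_lt b.2 b'.2
  exact Prod.ext (Fin.ext h6) (Fin.ext h7)

theorem crt_entry {r q : ℕ} (hr : 0 < r) (hq : 0 < q) (k : ℕ) (p : Fin r × Fin q) :
    ze (r * q) ^ (k * (crt r q hr hq p : ℕ)) =
      ze r ^ ((k % r) * (p.1 : ℕ)) * ze q ^ ((k % q) * (p.2 : ℕ)) := by
  have h1 : ze (r * q) ^ (k * (crt r q hr hq p : ℕ)) =
      ze (r * q) ^ (k * (q * p.1 + r * p.2)) := by
    have h2 : k * (crt r q hr hq p : ℕ) ≡ k * (q * p.1 + r * p.2) [MOD (r * q)] :=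
      Nat.ModEq.mul_left k (Nat.mod_modEq _ _)
    rw [pow_eq_pow_mod _ (ze_pow (r * q)), h2, ← pow_eq_pow_mod _ (ze_pow (r * q))]
  rw [h1, show k * (q * (p.1 : ℕ) + r * p.2) = q * (k * p.1) + r * (k * p.2) by ring, pow_add,
    pow_mul _ q, pow_mul _ r, ze_mul_pow' r q hr hq, ze_mul_pow r q hr hq, pow_mul _ k,
    pow_mul _ k, pow_mul _ (k % r), pow_mul _ (k % q), ← pow_eq_pow_mod _ (ze_pow r),
    ← pow_eq_pow_mod _ (ze_pow q)]

/-- **Good-Thomas**: no twiddle factors between coprime factors. -/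
theorem MCost.coprime {r q s t : ℕ} (hr : 0 < r) (hq : 0 < q) (h : Nat.Coprime r q)
    (h₁ : MCost (F r) s) (h₂ : MCost (F q) t) : MCost (F (r * q)) (r * t + q * s) := by
  have h3 := (h₁.tensor h₂).reindex (Equiv.ofBijective _ (crt_bij hr hq h)).symm
    (fun k : Fin (r * q) => ((⟨k % r, Nat.mod_lt _ hr⟩ : Fin r), (⟨k % q, Nat.mod_lt _ hq⟩ : Fin q)))
  rw [Fintype.card_fin, Fintype.card_fin] at h3
  convert h3 using 3 with k j
  obtain ⟨p, rfl⟩ := (Equiv.ofBijective _ (crt_bij hr hq h)).surjective j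
  rw [Equiv.symm_apply_apply, Equiv.ofBijective_apply, F, F, F, crt_entry]

theorem cost_three (b : ℂ) :
    Cost (fun k j : Fin 3 => (if k = j then 1 else 0) + b) 6 := by
  intro V _ _ S x hx
  have hx0 : x 0 ∈ S := hx ⟨0, rfl⟩
  have hx1 : x 1 ∈ S := hx ⟨1, rfl⟩
  have hx2 : x 2 ∈ S := hx ⟨2, rfl⟩
  have h1 := Cn.single_add hx0 hx1
  have h2 := h1.trans' (W' := {x 0 + x 1 + x 2}) (Cn.single_add (Or.inr rfl) (Or.inl hx2))
  have h3 := h2.trans' (W' := {b • (x 0 + x 1 + x 2)}) (Cn.single_smul b (Or.inr rfl))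
  have h4 : Cn (S ∪ {b • (x 0 + x 1 + x 2)}) (Fintype.card (Fin 3) * 1)
      (⋃ k : Fin 3, {x k + b • (x 0 + x 1 + x 2)}) :=
    Cn.fam fun k => Cn.single_add (Or.inl (hx ⟨k, rfl⟩)) (Or.inr rfl)
  refine (h3.trans' h4).mono subset_rfl (by simp) ?_
  rintro _ ⟨k, rfl⟩
  simp only [Set.mem_iUnion, Set.mem_singleton_iff]
  refine ⟨k, ?_⟩
  simp only [add_smul, Finset.sum_add_distrib, ite_smul, one_smul, zero_smul, Finset.sum_ite_eq,
    mem_univ, if_true, ← Finset.smul_sum, Fin.sum_univ_three]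

theorem mcost_three : MCost (F 3) 6 := by
  have hw : ze 3 ^ 3 = 1 := ze_pow 3
  have hprim : IsPrimitiveRoot (ze 3) 3 := Complex.isPrimitiveRoot_exp 3 (by norm_num)
  have hne : ze 3 ^ 2 - 1 ≠ 0 := by
    rw [sub_ne_zero]
    exact hprim.pow_ne_one_of_pos_of_lt (by norm_num) (by norm_num)
  have hz : ze 3 ≠ 0 := ze_ne 3
  -- row scaling `ze 3 ^ ...`
  refine ⟨fun k => ![ze 3 ^ 2, 1, 1] k / (ze 3 ^ 2 - 1), ![1, ze 3, ze 3], ?_, ?_, ?_⟩
  · intro k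
    fin_cases k <;> simp [hne, hz]
  · intro k
    fin_cases k <;> simp [hz]
  · have h := cost_three (1 / (ze 3 ^ 2 - 1))
    convert h using 3 with k j
    have h5 : ze 3 ^ 5 = ze 3 ^ 2 := by
      rw [show (5 : ℕ) = 3 + 2 from rfl, pow_add, hw]; ring
    fin_cases k <;> fin_cases j <;> simp [F] <;> field_simp <;> ring_nf <;> simp [hw, h5]

theorem mcost_24 : MCost (F 24) 135 :=
  MCost.coprime (by norm_num) (by norm_num) (by norm_num) mcost_three cost_eight.mcost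

theorem tcost_24 : TCost (F 24) 158 := mcost_24.tcost 0

theorem cost_two' : Cost (F 2) 2 := by
  have h := cost_two one_pos cost_one
  exact h

theorem tcost_two : TCost (F 2) 3 := cost_two'.mcost.tcost 0

theorem tcost_pow (a b : ℕ) : TCost (F (2 ^ a * 24 ^ b))
    ((18 * a + 79 * b) * (2 ^ a * 24 ^ b) / 12) := by
  induction b with
  | zero =>
    induction a with
    | zero => simpa using tcost_one
    | succ a ih =>
      have h := tcost_mul (by norm_num) (by positivity) tcost_two ih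
      have e1 : 2 * (2 ^ a * 24 ^ 0) = 2 ^ (a + 1) * 24 ^ 0 := by ring
      rw [e1] at h
      refine h.mono ?_
      rw [Nat.le_div_iff_mul_le (by norm_num)]
      have h2 : (18 * a + 79 * 0) * (2 ^ a * 24 ^ 0) / 12 * 12 ≤
        (18 * a + 79 * 0) * (2 ^ a * 24 ^ 0) := Nat.div_mul_le_self _ _
      calc (2 * ((18 * a + 79 * 0) * (2 ^ a * 24 ^ 0) / 12) + 2 ^ a * 24 ^ 0 * 3) * 12
          = 2 * ((18 * a + 79 * 0) * (2 ^ a * 24 ^ 0) / 12 * 12) + 36 * (2 ^ a * 24 ^ 0) := by ring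
        _ ≤ 2 * ((18 * a + 79 * 0) * (2 ^ a * 24 ^ 0)) + 36 * (2 ^ a * 24 ^ 0) := by omega
        _ = _ := by ring
  | succ b ih =>
    have h := tcost_mul (by norm_num) (by positivity) tcost_24 ih
    have e1 : 24 * (2 ^ a * 24 ^ b) = 2 ^ a * 24 ^ (b + 1) := by ring
    rw [e1] at h
    refine h.mono ?_
    rw [Nat.le_div_iff_mul_le (by norm_num)]
    have h2 : (18 * a + 79 * b) * (2 ^ a * 24 ^ b) / 12 * 12 ≤
      (18 * a + 79 * b) * (2 ^ a * 24 ^ b) := Nat.div_mul_le_self _ _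
    calc (24 * ((18 * a + 79 * b) * (2 ^ a * 24 ^ b) / 12) + 2 ^ a * 24 ^ b * 158) * 12
        = 24 * ((18 * a + 79 * b) * (2 ^ a * 24 ^ b) / 12 * 12) + 1896 * (2 ^ a * 24 ^ b) := by ring
      _ ≤ 24 * ((18 * a + 79 * b) * (2 ^ a * 24 ^ b)) + 1896 * (2 ^ a * 24 ^ b) := by omega
      _ = _ := by ring

/-- Unscaled transform. -/
theorem TCost.cost {n s : ℕ} (h : TCost (F n) s) : Cost (F n) (s + n) := by
  obtain ⟨c, hc, h1⟩ := h (fun _ => 1) (fun _ => one_ne_zero)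
  intro V _ _ S x hx
  refine (h1 V S x hx).trans' ?_
  have h2 : Cn (S ∪ Set.range fun k => ∑ j, (c k * F n k j * 1) • x j) (Fintype.card (Fin n) * 1)
      (⋃ k : Fin n, {(c k)⁻¹ • ∑ j, (c k * F n k j * 1) • x j}) :=
    Cn.fam fun k => Cn.single_smul _ (Or.inr ⟨k, rfl⟩)
  refine h2.mono subset_rfl (by simp) ?_
  rintro _ ⟨k, rfl⟩
  simp only [Set.mem_iUnion, Set.mem_singleton_iff]
  refine ⟨k, ?_⟩
  rw [Finset.smul_sum]
  refine Finset.sum_congr rfl fun j _ => ?_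
  rw [smul_smul]
  congr 1
  have := hc k
  field_simp

/-- From abstract programs to circuits. -/
theorem St.steps {X : Type} {S T : Set (X → ℂ)} {s : ℕ} (h : St S s T)
    {S' : Set (ℕ × (X → ℂ))} (hS : ∀ u ∈ S, ∃ d, (d, u) ∈ S') :
    ∃ T', Steps Set.univ S' s T' ∧ ∀ u ∈ T, ∃ d, (d, u) ∈ T' := by
  induction h with
  | zero => exact ⟨S', .zero, hS⟩
  | @add s T u v _ hu hv ih =>
    obtain ⟨T', h1, h2⟩ := ih
    obtain ⟨d, hd⟩ := h2 u hu
    obtain ⟨e, he⟩ := h2 v hv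
    refine ⟨_, h1.add hd he, ?_⟩
    rintro w (rfl | hw)
    · exact ⟨_, Set.mem_insert _ _⟩
    · obtain ⟨d', hd'⟩ := h2 w hw
      exact ⟨d', Set.mem_insert_of_mem _ hd'⟩
  | @sub s T u v _ hu hv ih =>
    obtain ⟨T', h1, h2⟩ := ih
    obtain ⟨d, hd⟩ := h2 u hu
    obtain ⟨e, he⟩ := h2 v hv
    refine ⟨_, h1.sub hd he, ?_⟩
    rintro w (rfl | hw)
    · exact ⟨_, Set.mem_insert _ _⟩
    · obtain ⟨d', hd'⟩ := h2 w hw
      exact ⟨d', Set.mem_insert_of_mem _ hd'⟩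
  | @smul s T u c _ hu ih =>
    obtain ⟨T', h1, h2⟩ := ih
    obtain ⟨d, hd⟩ := h2 u hu
    refine ⟨_, h1.smul c hd (Set.mem_univ _), ?_⟩
    rintro w (rfl | hw)
    · exact ⟨_, Set.mem_insert _ _⟩
    · obtain ⟨d', hd'⟩ := h2 w hw
      exact ⟨d', Set.mem_insert_of_mem _ hd'⟩

theorem L_le {n s : ℕ} (h : Cost (F n) s) : L n ≤ s := by
  obtain ⟨T, t, ht, h1, h2⟩ := h ((Fin n → ℂ) → ℂ) (Set.range fun (k : Fin n) (x : Fin n → ℂ) => x k)
    (fun k x => x k) subset_rfl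
  obtain ⟨T', h3, h4⟩ := h1.steps (S' := inputs (Fin n)) (by
    rintro _ ⟨k, rfl⟩
    exact ⟨0, rfl, Or.inr ⟨k, rfl⟩⟩)
  refine le_trans (Nat.sInf_le ?_) ht
  refine ⟨T', h3, fun j => ?_⟩
  obtain ⟨d, hd⟩ := h4 _ (h2 ⟨j, rfl⟩)
  refine ⟨d, le_top, ?_⟩
  have : dft n j = ∑ k, F n j k • fun x : Fin n → ℂ => x k := by
    funext x
    simp [dft, F, ze, Finset.sum_apply]
  rw [this]
  exact hd

/-- `L(2^a 24^b) ≤ (3 a / 2 + 79 b / 12 + 1) 2^a 24^b`. -/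
theorem L_pow (a b : ℕ) :
    12 * L (2 ^ a * 24 ^ b) ≤ (18 * a + 79 * b + 12) * (2 ^ a * 24 ^ b) := by
  have h := L_le (tcost_pow a b).cost
  have h2 := Nat.div_mul_le_self ((18 * a + 79 * b) * (2 ^ a * 24 ^ b)) 12
  calc 12 * L (2 ^ a * 24 ^ b) ≤
        12 * ((18 * a + 79 * b) * (2 ^ a * 24 ^ b) / 12 + 2 ^ a * 24 ^ b) :=
        Nat.mul_le_mul_left _ h
    _ = (18 * a + 79 * b) * (2 ^ a * 24 ^ b) / 12 * 12 + 12 * (2 ^ a * 24 ^ b) := by ring
    _ ≤ (18 * a + 79 * b) * (2 ^ a * 24 ^ b) + 12 * (2 ^ a * 24 ^ b) := by omega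
    _ = _ := by ring

end H992

end Vale.Agent.P344
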